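import Vale.Agent.P154.NegMid.ClosingBase

/-!
P154 NegMid: the closing inequality, case Five (generated).
-/

namespace Vale.Agent.P154.NegMid

open PolyCheck

namespace ClosingFive

/-- The expression. -/
noncomputable def fn (a C l m : ℝ) : ℝ :=
  closing (1 - 1 / ((5 : ℕ) : ℝ))
      (fun m => hReg 5 (11 / 12 * m))
      (fun m => hReg' 5 (11 / 12 * m))
      (fun m => hReg 5 m)
      (fun m => hReg 5 (3 / 4 * m))
      (fun m => hReg' 5 (3 / 4 * m)) a C l m

/-- Region A. -/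
def pA : Ex :=
  ofMons4 (Ex.v 1) [(172784430720000, 0, 0, 0, 0),
    (-69523272000000, 0, 0, 0, 1),
    (23259312000000, 0, 0, 0, 2),
    (-228869083440000, 0, 0, 2, 0),
    (196689740400000, 1, 1, 0, 0),
    (-424383408000000, 1, 1, 1, 1),
    (519514560000, 1, 1, 3, 0),
    (-74695497840000, 2, 0, 0, 0),
    (85135590000000, 2, 0, 0, 3),
    (-1226775238984800, 2, 0, 2, 1),
    (-170354936160000, 2, 0, 4, 0),
    (-149918150160000, 2, 2, 0, 0),
    (-5390727552000, 2, 2, 2, 0),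
    (492331724640000, 2, 2, 4, 0),
    (-96973504560000, 3, 1, 0, 0),
    (111981420000000, 3, 1, 1, 2),
    (2048347100448000, 3, 1, 3, 1),
    (440517787200000, 4, 0, 0, 0),
    (-16672769550000, 4, 0, 0, 4),
    (311552983497600, 4, 0, 2, 2),
    (-17125230366720, 4, 0, 4, 0),
    (-4526369897493600, 4, 0, 4, 1),
    (8889971859648000, 4, 2, 4, 1),
    (-14488809600000, 5, 1, 1, 3),
    (-488114055871200, 5, 1, 3, 2),
    (-27848525018688000, 5, 1, 5, 1),
    (1002180457500, 6, 0, 0, 5),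
    (-37504970550720, 6, 0, 2, 3),
    (892833622725600, 6, 0, 4, 2),
    (-2444742261403200, 6, 2, 4, 2),
    (694152625000, 7, 1, 1, 4),
    (52140244931280, 7, 1, 3, 3),
    (7658344380139200, 7, 1, 5, 2),
    (1697463038196, 8, 0, 2, 4),
    (-96592593145680, 8, 0, 4, 3),
    (298801831949280, 8, 2, 4, 3),
    (-2107830988197, 9, 1, 3, 4),
    (-936019868683680, 9, 1, 5, 3),
    (3957228657981, 10, 0, 4, 4),
    (-13695083964342, 10, 2, 4, 4),
    (42900910648002, 11, 1, 5, 4)]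

lemma pA_spec (a y l w : ℝ) :
    76399200000000 * fn a (y * a ^ 3) l (w * a ^ 2) = a ^ 4 * pA.eval (pt [a, y, l, w]) := by
  simp only [fn, closing, envF, edV, edD1, edD2, edG, edSq, hReg, hReg', pA, ofMons4_eval, monVal4, eval_v, pt_one]
  push_cast
  ring

theorem chkA : check 4 pA
    [⟨0, 23, 40⟩, ⟨-1, 1, 1⟩, ⟨44721, 44722, 100000⟩, ⟨0, 4, 1⟩]
    (.cut 3 (.cut 0 .leaf (.cut 1 (.cut 3 .leaf .leaf) (.cut 3 .leaf .leaf))) .leaf) = true := by
  decide +kernel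

/-- Region B. -/
def pB : Ex :=
  ofMons4 (Ex.v 1) [(23259312000000, 0, 0, 0, 0),
    (85135590000000, 0, 0, 0, 2),
    (-16672769550000, 0, 0, 0, 4),
    (1002180457500, 0, 0, 0, 6),
    (-69523272000000, 2, 0, 0, 0),
    (-424383408000000, 3, 1, 1, 1),
    (111981420000000, 3, 1, 1, 3),
    (-14488809600000, 3, 1, 1, 5),
    (694152625000, 3, 1, 1, 7),
    (172784430720000, 4, 0, 0, 0),
    (-228869083440000, 4, 0, 2, 0),
    (-1226775238984800, 4, 0, 2, 2),
    (311552983497600, 4, 0, 2, 4),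
    (-37504970550720, 4, 0, 2, 6),
    (1697463038196, 4, 0, 2, 8),
    (196689740400000, 5, 1, 0, 1),
    (519514560000, 5, 1, 3, 1),
    (2048347100448000, 5, 1, 3, 3),
    (-488114055871200, 5, 1, 3, 5),
    (52140244931280, 5, 1, 3, 7),
    (-2107830988197, 5, 1, 3, 9),
    (-74695497840000, 6, 0, 0, 2),
    (-170354936160000, 6, 0, 4, 2),
    (-4526369897493600, 6, 0, 4, 4),
    (892833622725600, 6, 0, 4, 6),
    (-96592593145680, 6, 0, 4, 8),
    (3957228657981, 6, 0, 4, 10),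
    (-149918150160000, 6, 2, 0, 2),
    (-5390727552000, 6, 2, 2, 2),
    (492331724640000, 6, 2, 4, 2),
    (8889971859648000, 6, 2, 4, 4),
    (-2444742261403200, 6, 2, 4, 6),
    (298801831949280, 6, 2, 4, 8),
    (-13695083964342, 6, 2, 4, 10),
    (-96973504560000, 7, 1, 0, 3),
    (-27848525018688000, 7, 1, 5, 5),
    (7658344380139200, 7, 1, 5, 7),
    (-936019868683680, 7, 1, 5, 9),
    (42900910648002, 7, 1, 5, 11),
    (440517787200000, 8, 0, 0, 4),
    (-17125230366720, 8, 0, 4, 4)]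

lemma pB_spec (t y l n : ℝ) :
    76399200000000 * fn (t * n) (y * (t * n) ^ 3) l (n ^ 2) = n ^ 4 * pB.eval (pt [t, y, l, n]) := by
  simp only [fn, closing, envF, edV, edD1, edD2, edG, edSq, hReg, hReg', pB, ofMons4_eval, monVal4, eval_v, pt_one]
  push_cast
  ring

theorem chkB : check 4 pB
    [⟨0, 1, 2⟩, ⟨-1, 1, 1⟩, ⟨44721, 44722, 100000⟩, ⟨0, 14143, 10000⟩]
    .leaf = true := by
  decide +kernel

/-- Region C. -/
def pC : Ex :=
  ofMons4 exC [(46518624000000, 0, 0, 0, 2),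
    (170271180000000, 0, 0, 0, 3),
    (-33345539100000, 0, 0, 0, 4),
    (2004360915000, 0, 0, 0, 5),
    (-424383408000000, 0, 1, 1, 1),
    (111981420000000, 0, 1, 1, 2),
    (-14488809600000, 0, 1, 1, 3),
    (694152625000, 0, 1, 1, 4),
    (-74959075080000, 0, 2, 0, 0),
    (-2695363776000, 0, 2, 2, 0),
    (246165862320000, 0, 2, 4, 0),
    (4444985929824000, 0, 2, 4, 1),
    (-1222371130701600, 0, 2, 4, 2),
    (149400915974640, 0, 2, 4, 3),
    (-6847541982171, 0, 2, 4, 4),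
    (-139046544000000, 2, 0, 0, 1),
    (196689740400000, 2, 1, 0, 0),
    (519514560000, 2, 1, 3, 0),
    (2048347100448000, 2, 1, 3, 1),
    (-488114055871200, 2, 1, 3, 2),
    (52140244931280, 2, 1, 3, 3),
    (-2107830988197, 2, 1, 3, 4),
    (345568861440000, 4, 0, 0, 0),
    (-457738166880000, 4, 0, 2, 0),
    (-2453550477969600, 4, 0, 2, 1),
    (623105966995200, 4, 0, 2, 2),
    (-75009941101440, 4, 0, 2, 3),
    (3394926076392, 4, 0, 2, 4),
    (-96973504560000, 4, 1, 0, 0),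
    (-27848525018688000, 4, 1, 5, 1),
    (7658344380139200, 4, 1, 5, 2),
    (-936019868683680, 4, 1, 5, 3),
    (42900910648002, 4, 1, 5, 4),
    (-149390995680000, 6, 0, 0, 0),
    (-340709872320000, 6, 0, 4, 0),
    (-9052739794987200, 6, 0, 4, 1),
    (1785667245451200, 6, 0, 4, 2),
    (-193185186291360, 6, 0, 4, 3),
    (7914457315962, 6, 0, 4, 4),
    (881035574400000, 8, 0, 0, 0),
    (-34250460733440, 8, 0, 4, 0)]

lemma pC_spec (a y l w : ℝ) :
    152798400000000 * fn a (y * a ^ 3 + (1 - y) * ((3 * a ^ 2 - 1) / 2)) l w = 1 * pC.eval (pt [a, y, l, w]) := by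
  simp only [fn, closing, envF, edV, edD1, edD2, edG, edSq, hReg, hReg', pC, ofMons4_eval, monVal4,
    exC, eval_add, eval_sub, eval_mul, eval_pow, eval_c, eval_v, pt_zero, pt_one]
  push_cast
  ring

theorem chkC : check 4 pC
    [⟨23, 40, 40⟩, ⟨0, 1, 1⟩, ⟨44721, 44722, 100000⟩, ⟨0, 2, 1⟩]
    (.cut 3 (.cut 0 (.cut 1 (.cut 3 .leaf (.cut 0 .leaf (.cut 3 .leaf .leaf))) (.cut 3 .leaf (.cut 0 (.cut 3 .leaf .leaf) (.cut 3 .leaf .leaf)))) (.cut 1 (.cut 3 .leaf (.cut 0 (.cut 3 .leaf .leaf) .leaf)) (.cut 3 .leaf (.cut 0 (.cut 3 .leaf .leaf) .leaf)))) (.cut 0 .leaf (.cut 1 (.cut 3 (.cut 0 .leaf (.cut 3 .leaf .leaf)) .leaf) (.cut 3 (.cut 0 .leaf (.cut 3 .leaf .leaf)) .leaf)))) = true := by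
  decide +kernel

end ClosingFive

open ClosingFive in
/-- The closing inequality. -/
theorem closingReg_five :
    ClosingReg 5 (44721 / 100000) (44722 / 100000) := by
  intro a C l m ha ha1 hCa hC hl hl' hm hm2
  refine of_regions (fun a C m => fn a C l m) (fun a y w h0 h1 h2 h3 h4 h5 => ?_)
    (fun t y n h0 h1 h2 h3 h4 h5 => ?_) (fun a y w h0 h1 h2 h3 h4 h5 => ?_) ha ha1 hCa hC hm hm2
  · refine piece_nonneg (K := 76399200000000) pA _ _ chkA (pt [a, y, l, w]) ?_ (a ^ 4) (pow_nonneg h0 4) (by norm_num)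
      (pA_spec a y l w)
    simp only [BoxMem, Iv.Mem, pt]
    push_cast
    refine ⟨⟨?_, ?_⟩, ⟨?_, ?_⟩, ⟨?_, ?_⟩, ⟨?_, ?_⟩, trivial⟩ <;> linarith
  · refine piece_nonneg (K := 76399200000000) pB _ _ chkB (pt [t, y, l, n]) ?_ (n ^ 4) (pow_nonneg h4 4) (by norm_num)
      (pB_spec t y l n)
    simp only [BoxMem, Iv.Mem, pt]
    push_cast
    refine ⟨⟨?_, ?_⟩, ⟨?_, ?_⟩, ⟨?_, ?_⟩, ⟨?_, ?_⟩, trivial⟩ <;> linarith
  · refine piece_nonneg (K := 152798400000000) pC _ _ chkC (pt [a, y, l, w]) ?_ (1) (zero_le_one) (by norm_num)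
      (pC_spec a y l w)
    simp only [BoxMem, Iv.Mem, pt]
    push_cast
    refine ⟨⟨?_, ?_⟩, ⟨?_, ?_⟩, ⟨?_, ?_⟩, ⟨?_, ?_⟩, trivial⟩ <;> linarith

end Vale.Agent.P154.NegMid
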