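import Vale.Agent.P154.NegMid.Final
import Vale.Agent.P154.NegMid.ClosingFive
import Vale.Agent.P154.NegMid.ClosingSix
import Vale.Agent.P154.NegMid.ClosingSeven
import Vale.Agent.P154.NegMid.ClosingPoi

/-!
P154: for three states and `lam ∈ [-1/√5, 0)` there is no reconstruction when `d lam ^ 2 ≤ 1`.
-/

namespace Vale.Agent.P154.NegMid

/-- Nonreconstruction at and below the threshold on `[-1/√5, 0)`, both models. -/
theorem nonReconstructs_mid (lam : ℝ) (hl : -(1 / √5) ≤ lam) (h0 : lam < 0) :
    (∀ d : ℕ, (d : ℝ) * lam ^ 2 ≤ 1 → NonReconstructs (aRegular 3 lam d)) ∧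
      ∀ d : ℝ, 0 ≤ d → d * lam ^ 2 ≤ 1 → NonReconstructs (aPoisson 3 lam d) :=
  nonReconstructs_mid_of_closing closingReg_five closingReg_six closingReg_seven
    (by convert closingPoi using 1; norm_num) lam hl h0

end Vale.Agent.P154.NegMid
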