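import Mathlib

/-!
P154: constants of the three-atom tangent certificate on `[-1/√5, -1/√8]`.
-/

namespace Vale.Agent.P154.NegMid

/-- Atoms, in sixths `(2,2,2)`, `(3,2,1)`, `(4,1,1)`. -/
noncomputable def atom : Fin 3 → Fin 3 → ℝ :=
  ![![1 / 3, 1 / 3, 1 / 3], ![1 / 2, 1 / 3, 1 / 6], ![2 / 3, 1 / 6, 1 / 6]]

/-- Coefficients. -/
def coef : Fin 3 → ℝ := ![-245, 346, -84]

/-- Second order remainder of `d` children. -/
noncomputable def hReg (d : ℕ) (x : ℝ) : ℝ := (1 - x / d) ^ d - 1 + x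

/-- Its derivative. -/
noncomputable def hReg' (d : ℕ) (x : ℝ) : ℝ := 1 - (1 - x / d) ^ (d - 1)

/-- Lower bound of `exp (-x) - 1 + x`. -/
noncomputable def pLo (x : ℝ) : ℝ :=
  x ^ 2 / 2 - x ^ 3 / 6 + x ^ 4 / 24 - x ^ 5 / 120 + x ^ 6 / 720 - x ^ 7 / 5040

/-- Its derivative. -/
noncomputable def pLo' (x : ℝ) : ℝ :=
  x - x ^ 2 / 2 + x ^ 3 / 6 - x ^ 4 / 24 + x ^ 5 / 120 - x ^ 6 / 720

/-- Upper bound of `exp (-x) - 1 + x`. -/
noncomputable def pHi (x : ℝ) : ℝ := pLo x + x ^ 8 / 40320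

/-- Its derivative. -/
noncomputable def pHi' (x : ℝ) : ℝ := pLo' x + x ^ 7 / 5040

end Vale.Agent.P154.NegMid
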