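import Vale.Agent.P154.NegMid.TanAssembly
import Vale.Agent.P154.NegMid.Defs
import Vale.Agent.P154.AffAssembly
import Mathlib.Analysis.SpecialFunctions.ExpDeriv
import Mathlib.Analysis.Calculus.Deriv.MeanValue

/-!
P154: tangent bounds for the second order remainders of the two generating functions on `[0, 2]`.
-/

namespace Vale.Agent.P154.NegMid

open Finset Set

namespace TanBd

/-- A function with nonnegative second derivative on an interval is above its tangents. -/
lemma tangent_le {f f1 f2 : ℝ → ℝ} {l u : ℝ}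
    (h1 : ∀ x ∈ Icc l u, HasDerivAt f (f1 x) x) (h2 : ∀ x ∈ Icc l u, HasDerivAt f1 (f2 x) x)
    (h0 : ∀ x ∈ Icc l u, 0 ≤ f2 x) {z a : ℝ} (hz : z ∈ Icc l u) (ha : a ∈ Icc l u) :
    f z + f1 z * (a - z) ≤ f a := by
  have hmono : MonotoneOn f1 (Icc l u) :=
    monotoneOn_of_hasDerivWithinAt_nonneg (convex_Icc l u)
      (fun x hx => (h2 x hx).continuousAt.continuousWithinAt)
      (fun x hx => (h2 x (interior_subset hx)).hasDerivWithinAt)
      fun x hx => h0 x (interior_subset hx)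
  have hg : ∀ x ∈ Icc l u, HasDerivAt (fun x => f x - f1 z * x) (f1 x - f1 z) x := fun x hx =>
    ((h1 x hx).sub ((hasDerivAt_id x).const_mul (f1 z))).congr_deriv (by simp)
  rcases le_total z a with hza | hza
  · have hsub : ∀ x ∈ Icc z a, x ∈ Icc l u := fun x hx => ⟨hz.1.trans hx.1, hx.2.trans ha.2⟩
    have := monotoneOn_of_hasDerivWithinAt_nonneg (convex_Icc z a)
      (fun x hx => (hg x (hsub x hx)).continuousAt.continuousWithinAt)
      (fun x hx => (hg x (hsub x (interior_subset hx))).hasDerivWithinAt)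
      (fun x hx => by
        have hx' := interior_subset hx
        linarith [hmono hz (hsub x hx') hx'.1])
      (left_mem_Icc.2 hza) (right_mem_Icc.2 hza) hza
    linarith
  · have hsub : ∀ x ∈ Icc a z, x ∈ Icc l u := fun x hx => ⟨ha.1.trans hx.1, hx.2.trans hz.2⟩
    have := antitoneOn_of_hasDerivWithinAt_nonpos (convex_Icc a z)
      (fun x hx => (hg x (hsub x hx)).continuousAt.continuousWithinAt)
      (fun x hx => (hg x (hsub x (interior_subset hx))).hasDerivWithinAt)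
      (fun x hx => by
        have hx' := interior_subset hx
        linarith [hmono (hsub x hx') hz hx'.2])
      (left_mem_Icc.2 hza) (right_mem_Icc.2 hza) hza
    linarith

/-- A function with second derivative at most `K` is below its tangents plus `K / 2` squared. -/
lemma le_tangent {f f1 f2 : ℝ → ℝ} {l u K : ℝ}
    (h1 : ∀ x ∈ Icc l u, HasDerivAt f (f1 x) x) (h2 : ∀ x ∈ Icc l u, HasDerivAt f1 (f2 x) x)
    (h0 : ∀ x ∈ Icc l u, f2 x ≤ K) {z a : ℝ} (hz : z ∈ Icc l u) (ha : a ∈ Icc l u) :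
    f a ≤ f z + f1 z * (a - z) + K / 2 * (a - z) ^ 2 := by
  have := tangent_le (f := fun x => K / 2 * x ^ 2 - f x) (f1 := fun x => K * x - f1 x)
    (f2 := fun x => K - f2 x)
    (fun x hx => (((hasDerivAt_id x).pow 2).const_mul (K / 2)).sub (h1 x hx) |>.congr_deriv
      (by simp; ring))
    (fun x hx => ((hasDerivAt_id x).const_mul K).sub (h2 x hx) |>.congr_deriv (by simp))
    (fun x hx => by linarith [h0 x hx]) hz ha
  linarith

/-- Taylor polynomial of `exp (-x)` with `n` terms. -/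
noncomputable def T (n : ℕ) (x : ℝ) : ℝ := ∑ k ∈ Finset.range n, (-x) ^ k / (k.factorial : ℝ)

lemma hasDerivAt_T : ∀ (n : ℕ) (x : ℝ), HasDerivAt (T (n + 1)) (-T n x) x := by
  intro n
  induction n with
  | zero =>
    intro x
    have : T (0 + 1) = fun _ => (1 : ℝ) := by funext y; simp [T]
    rw [this]
    simpa [T] using hasDerivAt_const x (1 : ℝ)
  | succ n ih =>
    intro x
    have h : T (n + 1 + 1) = fun y => T (n + 1) y + (-y) ^ (n + 1) / ((n + 1).factorial : ℝ) := by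
      funext y; simp only [T, Finset.sum_range_succ]
    rw [h]
    refine ((ih x).add ((((hasDerivAt_id x).neg).pow (n + 1)).div_const _)).congr_deriv ?_
    simp only [T, Finset.sum_range_succ, Nat.factorial_succ, id, Pi.neg_apply, Nat.add_sub_cancel,
      Nat.cast_mul, Nat.cast_add, Nat.cast_one]
    have : (n.factorial : ℝ) ≠ 0 := by positivity
    field_simp
    ring

lemma T_sign : ∀ (n : ℕ) (x : ℝ), 0 ≤ x → 0 ≤ (-1 : ℝ) ^ n * (Real.exp (-x) - T n x) := by
  intro n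
  induction n with
  | zero => intro x _; simpa [T] using (Real.exp_pos _).le
  | succ n ih =>
    intro x hx
    have hd : ∀ y : ℝ, HasDerivAt (fun y => (-1 : ℝ) ^ (n + 1) * (Real.exp (-y) - T (n + 1) y))
        ((-1 : ℝ) ^ n * (Real.exp (-y) - T n y)) y := fun y =>
      (((hasDerivAt_id y).neg.exp).sub (hasDerivAt_T n y)).const_mul ((-1 : ℝ) ^ (n + 1))
        |>.congr_deriv (by simp [pow_succ]; ring)
    have := monotoneOn_of_hasDerivWithinAt_nonneg (convex_Ici 0)
      (fun y _ => (hd y).continuousAt.continuousWithinAt)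
      (fun y _ => (hd y).hasDerivWithinAt) (fun y hy => ih y (interior_subset hy))
      self_mem_Ici (mem_Ici.2 hx) hx
    have h0 : T (n + 1) 0 = 1 := by
      simp [T, Finset.sum_range_succ']
    simpa [h0] using this

lemma T_six (x : ℝ) :
    T 6 x = 1 - x + x ^ 2 / 2 - x ^ 3 / 6 + x ^ 4 / 24 - x ^ 5 / 120 := by
  simp [T, Finset.sum_range_succ, Nat.factorial]
  ring

lemma pLo_eq (x : ℝ) : pLo x = T 8 x - 1 + x := by
  simp [T, pLo, Finset.sum_range_succ, Nat.factorial]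
  ring

lemma pHi_eq (x : ℝ) : pHi x = T 9 x - 1 + x := by
  simp [T, pHi, pLo, Finset.sum_range_succ, Nat.factorial]
  ring

lemma pLo_le {x : ℝ} (hx : 0 ≤ x) : pLo x ≤ Real.exp (-x) - 1 + x := by
  have := T_sign 8 x hx
  norm_num at this
  rw [pLo_eq]
  linarith

lemma le_pHi {x : ℝ} (hx : 0 ≤ x) : Real.exp (-x) - 1 + x ≤ pHi x := by
  have := T_sign 9 x hx
  norm_num at this
  rw [pHi_eq]
  linarith

lemma hasDerivAt_pLo (x : ℝ) : HasDerivAt pLo (1 - T 7 x) x := by
  rw [funext pLo_eq]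
  exact (((hasDerivAt_T 7 x).sub_const 1).add (hasDerivAt_id x)).congr_deriv (by ring)

lemma hasDerivAt_pHi (x : ℝ) : HasDerivAt pHi (1 - T 8 x) x := by
  rw [funext pHi_eq]
  exact (((hasDerivAt_T 8 x).sub_const 1).add (hasDerivAt_id x)).congr_deriv (by ring)

lemma pLo'_eq : pLo' = fun x => 1 - T 7 x := by
  funext x
  simp [T, pLo', Finset.sum_range_succ, Nat.factorial]
  ring

lemma pHi'_eq : pHi' = fun x => 1 - T 8 x := by
  funext x
  simp [T, pHi', pLo', Finset.sum_range_succ, Nat.factorial]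
  ring

lemma T_six_nonneg {x : ℝ} (hx : x ∈ Icc (0 : ℝ) 2) : 0 ≤ T 6 x := by
  have hanti : AntitoneOn (T 6) (Icc (0 : ℝ) 2) :=
    antitoneOn_of_hasDerivWithinAt_nonpos (convex_Icc 0 2)
      (fun y _ => (hasDerivAt_T 5 y).continuousAt.continuousWithinAt)
      (fun y _ => (hasDerivAt_T 5 y).hasDerivWithinAt)
      fun y hy => by
        have := T_sign 5 y (interior_subset hy).1
        norm_num at this
        linarith [Real.exp_pos (-y)]
  refine le_trans ?_ (hanti hx (right_mem_Icc.2 (by norm_num)) hx.2)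
  rw [T_six]
  norm_num

lemma T_seven_le {x : ℝ} (hx : x ∈ Icc (0 : ℝ) 2) : T 7 x ≤ 1 := by
  have e : T 7 x = 1 - x * (1 - x / 2) - x ^ 3 / 6 * (1 - x / 4) - x ^ 5 / 120 * (1 - x / 6) := by
    simp [T, Finset.sum_range_succ, Nat.factorial]
    ring
  obtain ⟨h0, h2⟩ := hx
  have := mul_nonneg h0 (by linarith : 0 ≤ 1 - x / 2)
  have := mul_nonneg (by positivity : 0 ≤ x ^ 3 / 6) (by linarith : 0 ≤ 1 - x / 4)
  have := mul_nonneg (by positivity : 0 ≤ x ^ 5 / 120) (by linarith : 0 ≤ 1 - x / 6)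
  linarith

lemma hasDerivAt_hReg {d : ℕ} (hd : 2 ≤ d) (x : ℝ) : HasDerivAt (hReg d) (hReg' d x) x := by
  have hd0 : (d : ℝ) ≠ 0 := Nat.cast_ne_zero.2 (by omega)
  refine ((((((hasDerivAt_id x).div_const (d : ℝ)).const_sub 1).pow d).sub_const 1).add
    (hasDerivAt_id x)).congr_deriv ?_
  simp only [hReg', id]
  field_simp
  ring

lemma hasDerivAt_hReg' {d : ℕ} (hd : 2 ≤ d) (x : ℝ) :
    HasDerivAt (hReg' d) ((1 - 1 / (d : ℝ)) * (1 - x / d) ^ (d - 2)) x := by
  have hd0 : (d : ℝ) ≠ 0 := Nat.cast_ne_zero.2 (by omega)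
  refine ((((hasDerivAt_id x).div_const (d : ℝ)).const_sub 1).pow (d - 1)).const_sub 1
    |>.congr_deriv ?_
  have e : d - 1 - 1 = d - 2 := by omega
  simp only [id, e, Nat.cast_sub (show 1 ≤ d by omega)]
  field_simp
  push_cast
  ring

end TanBd

open TanBd

/-- The tangent bounds for `d` children. -/
theorem tanBounds_regular {d : ℕ} (hd : 2 ≤ d) :
    TanBounds (genRegular d) d (1 - 1 / (d : ℝ)) 2 (11 / 12) (3 / 4)
      (fun m => hReg d (11 / 12 * m)) (fun m => hReg' d (11 / 12 * m))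
      (fun m => hReg d m) (fun m => hReg' d m)
      (fun m => hReg d (3 / 4 * m)) (fun m => hReg' d (3 / 4 * m)) := by
  intro m hm hm2 a ha ha2 _
  have hd' : (2 : ℝ) ≤ d := by exact_mod_cast hd
  have hk : 0 ≤ 1 - 1 / (d : ℝ) := by
    rw [sub_nonneg, div_le_one (by linarith)]; linarith
  have hy : ∀ x ∈ Icc (0 : ℝ) 2, 0 ≤ 1 - x / (d : ℝ) ∧ 1 - x / (d : ℝ) ≤ 1 := fun x hx => by
    have h1 : x / (d : ℝ) ≤ 1 := by rw [div_le_one (by linarith)]; linarith [hx.2]
    have h2 : 0 ≤ x / (d : ℝ) := div_nonneg hx.1 (by linarith)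
    constructor <;> linarith
  have low : ∀ x ∈ Icc (0 : ℝ) 2, 0 ≤ (1 - 1 / (d : ℝ)) * (1 - x / d) ^ (d - 2) := fun x hx =>
    mul_nonneg hk (pow_nonneg (hy x hx).1 _)
  have upp : ∀ x ∈ Icc (0 : ℝ) 2,
      (1 - 1 / (d : ℝ)) * (1 - x / d) ^ (d - 2) ≤ 1 - 1 / (d : ℝ) := fun x hx =>
    mul_le_of_le_one_right hk (pow_le_one₀ (hy x hx).1 (hy x hx).2)
  have d1 := fun x (_ : x ∈ Icc (0 : ℝ) 2) => hasDerivAt_hReg hd x
  have d2 := fun x (_ : x ∈ Icc (0 : ℝ) 2) => hasDerivAt_hReg' hd x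
  have hH : genRegular d (1 - a / d) - 1 + a = hReg d a := rfl
  rw [hH]
  exact ⟨tangent_le d1 d2 low ⟨by positivity, by linarith⟩ ⟨ha, ha2⟩,
    le_tangent d1 d2 upp ⟨hm, hm2⟩ ⟨ha, ha2⟩,
    le_tangent d1 d2 upp ⟨by positivity, by linarith⟩ ⟨ha, ha2⟩⟩

/-- The tangent bounds for a Poisson number of children. -/
theorem tanBounds_poisson {d : ℝ} (hd : 0 < d) :
    TanBounds (genPoisson d) d 1 2 (11 / 12) (3 / 4)
      (fun m => pLo (11 / 12 * m)) (fun m => pLo' (11 / 12 * m))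
      (fun m => pHi m) (fun m => pHi' m)
      (fun m => pHi (3 / 4 * m)) (fun m => pHi' (3 / 4 * m)) := by
  intro m hm hm2 a ha ha2 _
  have hG : genPoisson d (1 - a / d) = Real.exp (-a) := by
    rw [genPoisson]
    congr 1
    field_simp
    ring
  rw [hG, pLo'_eq, pHi'_eq]
  have d2l : ∀ x ∈ Icc (0 : ℝ) 2, HasDerivAt (fun x => 1 - T 7 x) (T 6 x) x := fun x _ =>
    ((hasDerivAt_T 6 x).const_sub 1).congr_deriv (by ring)
  have d2h : ∀ x ∈ Icc (0 : ℝ) 2, HasDerivAt (fun x => 1 - T 8 x) (T 7 x) x := fun x _ =>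
    ((hasDerivAt_T 7 x).const_sub 1).congr_deriv (by ring)
  have l1 := tangent_le (fun x _ => hasDerivAt_pLo x) d2l (fun x => T_six_nonneg)
    (z := 11 / 12 * m) ⟨by positivity, by linarith⟩ ⟨ha, ha2⟩
  have u1 := le_tangent (fun x _ => hasDerivAt_pHi x) d2h (fun x => T_seven_le)
    (z := m) ⟨hm, hm2⟩ ⟨ha, ha2⟩
  have u2 := le_tangent (fun x _ => hasDerivAt_pHi x) d2h (fun x => T_seven_le)
    (z := 3 / 4 * m) ⟨by positivity, by linarith⟩ ⟨ha, ha2⟩
  have := pLo_le ha
  have := le_pHi ha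
  exact ⟨by linarith, by linarith, by linarith⟩

end Vale.Agent.P154.NegMid
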