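import Vale.Agent.P154.AffAssembly
import Vale.Agent.P154.PointAssembly

/-!
P154: affinity certificates with several negative coefficients.

The atoms are split into groups, each with one negative atom and affine denominators on both
sides. What is left of the second order remainder is controlled through linear bounds of all
averaged atoms by a reference atom.
-/

namespace Vale.Agent.P154

open Finset

/-- The grouped data: `c` are the coefficients of the Lyapunov function, group `g` has the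
negative atom `n g` with weight `b0 g`, the weights `b g j` of the other atoms and the weights
`r g j` of the Cauchy-Schwarz step; every averaged atom lies between `lo j` and `hi j` times
the reference atom `j0`, which is at most `A`. -/
structure GroupData (q N K : ℕ) where
  /-- The atoms. -/
  α : Fin N → Fin q → ℝ
  /-- The coefficients of the Lyapunov function. -/
  c : Fin N → ℝ
  /-- The negative atom of a group. -/
  n : Fin K → Fin N
  /-- Its weight. -/
  b0 : Fin K → ℝ
  /-- The other weights of a group. -/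
  b : Fin K → Fin N → ℝ
  /-- The Cauchy-Schwarz weights. -/
  r : Fin K → Fin N → ℝ
  /-- The reference atom. -/
  j0 : Fin N
  /-- Lower ratio. -/
  lo : Fin N → ℝ
  /-- Upper ratio. -/
  hi : Fin N → ℝ
  /-- Bound on the reference atom. -/
  A : ℝ

namespace GroupData

variable {q N K : ℕ} (D : GroupData q N K)

/-- An atom after one edge, times `d`, averaged over the permutations. -/
noncomputable def edge (lam d : ℝ) (j : Fin N) (u : Fin q → ℝ) : ℝ :=
  PointAssembly.pav (fun u => d * (1 - aff (D.α j) fun i => lam * u i)) u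

/-- An atom at a vertex, averaged over the permutations. -/
noncomputable def vert (j : Fin N) (u : Fin q → ℝ) : ℝ :=
  1 - PointAssembly.pav (aff (D.α j)) u

/-- The numerator of a group. -/
def num (g : Fin K) (a : Fin N → ℝ) : ℝ :=
  D.b0 g * a (D.n g) - ∑ j, D.b g j * D.r g j * a j

/-- The denominator of a group. -/
def den (β : ℝ) (g : Fin K) (a : Fin N → ℝ) : ℝ :=
  D.b0 g * (1 + β * a (D.n g)) - ∑ j, D.b g j * D.r g j ^ 2 * (1 + β * a j)

/-- The second order part which the groups account for. -/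
noncomputable def main (κ β : ℝ) (a : Fin N → ℝ) : ℝ :=
  κ / 2 * ∑ g, (D.b0 g * (a (D.n g) ^ 2 / (1 + β * a (D.n g))) -
    ∑ j, D.b g j * (a j ^ 2 / (1 + β * a j)))

end GroupData

/-- Pointwise certificate for the grouped bound. -/
def PointCertG {q N K : ℕ} (lam d κ β ε : ℝ) (D : GroupData q N K) : Prop :=
  0 < ε ∧ (∀ g, 0 ≤ D.b0 g) ∧ (∀ g j, 0 ≤ D.b g j) ∧ (∀ j i, 0 ≤ D.α j i) ∧
    (∀ j, ∑ i, D.α j i = 1) ∧
    ∀ u, Dev u →
      D.edge lam d D.j0 u ≤ D.A ∧
      (∀ j, D.lo j * D.edge lam d D.j0 u ≤ D.edge lam d j u ∧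
        D.edge lam d j u ≤ D.hi j * D.edge lam d D.j0 u) ∧
      (∀ g, 0 < D.den β g fun j => D.edge lam d j u) ∧
      κ / 2 * (∑ g, (D.num g fun j => D.edge lam d j u) ^ 2 /
          (D.den β g fun j => D.edge lam d j u)) + ε * ss u ^ 2 ≤
        ∑ j, D.c j * (D.vert j u - D.edge lam d j u)

/-- The part of the second order remainder which the groups leave is nonnegative. -/
def RemCertG {q N K : ℕ} (G : ℝ → ℝ) (d κ β : ℝ) (D : GroupData q N K) : Prop :=
  ∀ a : Fin N → ℝ, a D.j0 ≤ D.A → (∀ j, 0 ≤ a j ∧ a j ≤ d) →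
    (∀ j, D.lo j * a D.j0 ≤ a j ∧ a j ≤ D.hi j * a D.j0) →
    ∑ j, (-(D.c j)) * (G (1 - a j / d) - 1 + a j) ≤ D.main κ β a

namespace PointAssembly

variable {q N K : ℕ}

/-- The bound of one group. -/
lemma group_le (D : GroupData q N K) {β : ℝ} (hβ : 0 ≤ β) (g : Fin K) (hb0 : 0 ≤ D.b0 g)
    (hb : ∀ j, 0 ≤ D.b g j) (a : Fin N → ℝ) (ha : ∀ j, 0 ≤ a j) (hden : 0 < D.den β g a) :
    D.b0 g * (a (D.n g) ^ 2 / (1 + β * a (D.n g))) -
        ∑ j, D.b g j * (a j ^ 2 / (1 + β * a j)) ≤
      D.num g a ^ 2 / D.den β g a := by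
  have hp : ∀ j, 0 < 1 + β * a j := fun j => by linarith [mul_nonneg hβ (ha j)]
  have hY : 0 ≤ ∑ j, D.b g j * D.r g j ^ 2 * (1 + β * a j) :=
    sum_nonneg fun j _ => mul_nonneg (mul_nonneg (hb j) (sq_nonneg _)) (hp j).le
  have hF : 0 ≤ ∑ j, D.b g j * (a j ^ 2 / (1 + β * a j)) :=
    sum_nonneg fun j _ => mul_nonneg (hb j) (div_nonneg (sq_nonneg _) (hp j).le)
  have hXF : (∑ j, D.b g j * D.r g j * a j) ^ 2 ≤
      (∑ j, D.b g j * (a j ^ 2 / (1 + β * a j))) *
        ∑ j, D.b g j * D.r g j ^ 2 * (1 + β * a j) :=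
    sum_sq_le_sum_mul_sum_of_sq_le_mul _
      (fun j _ => mul_nonneg (hb j) (div_nonneg (sq_nonneg _) (hp j).le))
      (fun j _ => mul_nonneg (mul_nonneg (hb j) (sq_nonneg _)) (hp j).le)
      fun j _ => le_of_eq (by
        linear_combination (-(D.b g j ^ 2 * D.r g j ^ 2)) *
          (div_mul_cancel₀ (a j ^ 2) (hp j).ne'))
  have h := titu_sub (P := D.b0 g * a (D.n g)) hY hXF hF hden
  refine le_trans (le_of_eq ?_) h
  congr 1
  rcases hb0.eq_or_lt with h0 | h0
  · simp [← h0]
  · field_simp [(hp (D.n g)).ne']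

/-- Concave envelope: the ratio of the means is at most the mean of the ratio. -/
lemma E_ratio (L : Law q) {B den : (Fin q → ℝ) → ℝ} (hdu : ∀ u, Dev u → 0 < den u)
    (hM : 0 < L.E den) : L.E B ^ 2 / L.E den ≤ L.E fun u => B u ^ 2 / den u := by
  set k := L.E B / L.E den with hk
  have h1 : L.E (fun u => 2 * k * B u - k ^ 2 * den u) ≤ L.E fun u => B u ^ 2 / den u :=
    L.mono _ _ fun u hu => by
      rw [le_div_iff₀ (hdu u hu)]
      nlinarith [sq_nonneg (B u - k * den u)]
  rw [L.sub_fun, L.smul_fun, L.smul_fun] at h1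
  refine le_trans (le_of_eq ?_) h1
  rw [hk]
  field_simp
  ring

/-- The mean of an averaged atom. -/
lemma E_edge (L : Law q) (D : GroupData q N K) (lam d : ℝ) (j : Fin N) :
    L.E (D.edge lam d j) = d * L.defectEdge (D.α j) lam := by
  rw [show D.edge lam d j = pav fun u => d * (1 - aff (D.α j) fun i => lam * u i) from rfl, E_pav,
    Law.defectEdge, L.smul_fun, L.sub_fun, L.const]

lemma E_den (L : Law q) (D : GroupData q N K) (β : ℝ) (g : Fin K)
    (a : Fin N → (Fin q → ℝ) → ℝ) :
    L.E (fun u => D.den β g fun j => a j u) = D.den β g fun j => L.E (a j) := by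
  simp only [GroupData.den, L.sub_fun, L.add_fun, L.smul_fun, L.const, E_fsum]

lemma E_num (L : Law q) (D : GroupData q N K) (g : Fin K) (a : Fin N → (Fin q → ℝ) → ℝ) :
    L.E (fun u => D.num g fun j => a j u) = D.num g fun j => L.E (a j) := by
  simp only [GroupData.num, L.sub_fun, L.smul_fun, E_fsum]

lemma continuous_edge (D : GroupData q N K) (lam d : ℝ) (j : Fin N) (h0 : ∀ i, 0 ≤ D.α j i) :
    Continuous (D.edge lam d j) := by
  have h : Continuous fun u : Fin q → ℝ => fun i => lam * u i := by fun_prop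
  exact continuous_pav (g := fun u => d * (1 - aff (D.α j) fun i => lam * u i))
    (continuous_const.mul (continuous_const.sub ((continuous_aff h0).comp h)))

lemma continuous_den (D : GroupData q N K) (β : ℝ) (g : Fin K) (a : Fin N → (Fin q → ℝ) → ℝ)
    (ha : ∀ j, Continuous (a j)) : Continuous fun u => D.den β g fun j => a j u := by
  unfold GroupData.den
  exact (continuous_const.mul (continuous_const.add (continuous_const.mul (ha _)))).sub
    (continuous_finsetSum _ fun j _ =>
      continuous_const.mul (continuous_const.add (continuous_const.mul (ha _))))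

/-- The groups at the mean. -/
lemma main_le (L : Law q) (D : GroupData q N K) {κ β : ℝ} (hκ : 0 ≤ κ) (hβ : 0 ≤ β)
    (hb0 : ∀ g, 0 ≤ D.b0 g) (hb : ∀ g j, 0 ≤ D.b g j) (a : Fin N → (Fin q → ℝ) → ℝ)
    (ha : ∀ j, Continuous (a j)) (ha0 : ∀ j, 0 ≤ L.E (a j))
    (hden : ∀ g u, Dev u → 0 < D.den β g fun j => a j u) :
    D.main κ β (fun j => L.E (a j)) ≤
      κ / 2 * ∑ g, L.E fun u => (D.num g fun j => a j u) ^ 2 / D.den β g fun j => a j u := by
  refine mul_le_mul_of_nonneg_left (sum_le_sum fun g _ => ?_) (by linarith)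
  have hM : 0 < L.E fun u => D.den β g fun j => a j u :=
    E_pos L (continuous_den D β g a ha) (hden g)
  have h := E_ratio L (B := fun u => D.num g fun j => a j u) (hden g) hM
  rw [E_den] at hM
  rw [E_den, E_num] at h
  exact (group_le D hβ g (hb0 g) (hb g) _ ha0 hM).trans h

/-- The vertex side at the mean. -/
lemma E_right (L : Law q) (D : GroupData q N K) (lam d : ℝ) :
    L.E (fun u => ∑ j, D.c j * (D.vert j u - D.edge lam d j u)) =
      ∑ j, D.c j * (L.defect (D.α j) - L.E (D.edge lam d j)) := by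
  simp only [E_fsum, L.smul_fun, L.sub_fun, L.const, GroupData.vert, E_pav, Law.defect]

end PointAssembly

open PointAssembly in
/-- A grouped pointwise certificate with nonnegative remainder is an affinity certificate. -/
theorem affCert_of_pointCertG {q N K : ℕ} (hq : 2 ≤ q) (lam : ℝ)
    (hl : -(1 / ((q : ℝ) - 1)) ≤ lam) (hl' : lam ≤ 1) {G : ℝ → ℝ} {d κ β ε : ℝ}
    {D : GroupData q N K} (hd : 0 < d) (hκ : 0 ≤ κ) (hβ : 0 ≤ β) (hR : RemCertG G d κ β D)
    (hP : PointCertG lam d κ β ε D) : AffCert q lam G := by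
  obtain ⟨hε, hb0, hb, hα0, hα1, hpt⟩ := hP
  refine ⟨N, D.α, fun x => ∑ j, D.c j * x j, ε, hε, by fun_prop, hα0, hα1, fun L => ?_⟩
  have he01 : ∀ j, 0 ≤ L.E (D.edge lam d j) ∧ L.E (D.edge lam d j) ≤ d := fun j => by
    rw [E_edge, Law.defectEdge, Law.E_scale_aff hq lam hl hl']
    have h0 := (L.scale hq lam hl hl').E_aff_nonneg (D.α j)
    have h1 := (L.scale hq lam hl hl').E_aff_le_one (hα0 j) (hα1 j)
    exact ⟨mul_nonneg hd.le (by linarith), mul_le_of_le_one_right hd.le (by linarith)⟩
  have hrem := hR (fun j => L.E (D.edge lam d j))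
    (le_of_le_of_eq (L.mono _ _ fun u hu => (hpt u hu).1) (L.const D.A)) he01 fun j =>
    ⟨le_of_eq_of_le (L.smul_fun _ _).symm (L.mono _ _ fun u hu => ((hpt u hu).2.1 j).1),
      le_of_le_of_eq (L.mono _ _ fun u hu => ((hpt u hu).2.1 j).2) (L.smul_fun _ _)⟩
  have hgroups := main_le L D hκ hβ hb0 hb (D.edge lam d)
    (fun j => continuous_edge D lam d j (hα0 j)) (fun j => (he01 j).1)
    fun g u hu => (hpt u hu).2.2.1 g
  have hpoint := L.mono _ _ fun u hu => (hpt u hu).2.2.2
  rw [E_right, L.add_fun, L.smul_fun, L.smul_fun, E_fsum] at hpoint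
  have hS := mul_le_mul_of_nonneg_left (E_sq L ss) hε.le
  have hG1 : ∀ j, 1 - G (1 - L.defectEdge (D.α j) lam) = L.E (D.edge lam d j) -
      (G (1 - L.E (D.edge lam d j) / d) - 1 + L.E (D.edge lam d j)) :=
    fun j => by rw [E_edge, mul_div_cancel_left₀ _ hd.ne']; ring
  simp only [hG1, Law.S, mul_sub, sum_sub_distrib, neg_mul, sum_neg_distrib] at hrem hpoint ⊢
  linarith

end Vale.Agent.P154
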