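import Vale.Agent.P154.NegMid.ClosingDefs
import Vale.Agent.P154.Cert.PolyCheck

/-!
P154 NegMid: the three regions of the closing inequality.
-/

namespace Vale.Agent.P154.NegMid

open PolyCheck

/-- A monomial list in four variables. -/
def ofMons4 (B : Ex) : List (ℤ × ℕ × ℕ × ℕ × ℕ) → Ex
  | [] => Ex.c 0
  | (k, i, j, e, f) :: l =>
    Ex.c k * Ex.v 0 ^ i * B ^ j * Ex.v 2 ^ e * Ex.v 3 ^ f + ofMons4 B l

/-- Twice `C` on the third region. -/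
def exC : Ex :=
  Ex.c 2 * Ex.v 1 * Ex.v 0 ^ 3 + (Ex.c 1 - Ex.v 1) * (Ex.c 3 * Ex.v 0 ^ 2 - Ex.c 1)

/-- Its value. -/
def monVal4 : List (ℤ × ℕ × ℕ × ℕ × ℕ) → ℝ → ℝ → ℝ → ℝ → ℝ
  | [], _, _, _, _ => 0
  | (k, i, j, e, f) :: l, x, y, z, w =>
    (k : ℝ) * x ^ i * y ^ j * z ^ e * w ^ f + monVal4 l x y z w

lemma ofMons4_eval (B : Ex) : ∀ (l : List (ℤ × ℕ × ℕ × ℕ × ℕ)) (x y z w : ℝ),
    (ofMons4 B l).eval (pt [x, y, z, w]) = monVal4 l x (B.eval (pt [x, y, z, w])) z w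
  | [], x, y, z, w => by simp [ofMons4, monVal4]
  | (k, i, j, e, f) :: l, x, y, z, w => by
    simp [ofMons4, monVal4, ofMons4_eval B l x y z w, pt]

/-- A checked piece, as an inequality. -/
lemma piece_nonneg {f K : ℝ} (e : Ex) (B : List Iv) (T : Cut) (h : check 4 e B T = true)
    (x : ℕ → ℝ) (hx : BoxMem B x) (g : ℝ) (hg : 0 ≤ g) (hK : 0 < K)
    (he : K * f = g * e.eval x) : 0 ≤ f :=
  nonneg_of_mul_nonneg_right (he ▸ mul_nonneg hg (nonneg_of_check e B T h x hx)) hK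

/-- The three regions. -/
theorem of_regions (f : ℝ → ℝ → ℝ → ℝ)
    (hA : ∀ a eta mu, 0 ≤ a → a ≤ 23 / 40 → -1 ≤ eta → eta ≤ 1 → 0 ≤ mu → mu ≤ 4 →
      0 ≤ f a (eta * a ^ 3) (mu * a ^ 2))
    (hB : ∀ t eta n, 0 ≤ t → t ≤ 1 / 2 → -1 ≤ eta → eta ≤ 1 → 0 ≤ n → n ≤ 14143 / 10000 →
      0 ≤ f (t * n) (eta * (t * n) ^ 3) (n ^ 2))
    (hC : ∀ a w m, 23 / 40 ≤ a → a ≤ 1 → 0 ≤ w → w ≤ 1 → 0 ≤ m → m ≤ 2 →
      0 ≤ f a (w * a ^ 3 + (1 - w) * ((3 * a ^ 2 - 1) / 2)) m)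
    {a C m : ℝ} (ha : 0 ≤ a) (ha1 : a ≤ 1) (hCa : |C| ≤ a ^ 3)
    (hC1 : (3 * a ^ 2 - 1) / 2 ≤ C) (hm : 0 ≤ m) (hm2 : m ≤ 2) : 0 ≤ f a C m := by
  obtain ⟨hlo, hhi⟩ := abs_le.1 hCa
  rcases le_total a (23 / 40) with h | h
  · obtain ⟨eta, he, he1, rfl⟩ : ∃ eta, -1 ≤ eta ∧ eta ≤ 1 ∧ C = eta * a ^ 3 := by
      rcases (pow_nonneg ha 3).eq_or_lt with h3 | h3
      · exact ⟨0, by norm_num, by norm_num, by linarith⟩
      · exact ⟨C / a ^ 3, (le_div_iff₀ h3).2 (by linarith), (div_le_one h3).2 hhi,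
          (div_mul_cancel₀ _ h3.ne').symm⟩
    rcases le_or_gt m (4 * a ^ 2) with hm4 | hm4
    · obtain ⟨mu, hmu, hmu4, rfl⟩ : ∃ mu, 0 ≤ mu ∧ mu ≤ 4 ∧ m = mu * a ^ 2 := by
        rcases (pow_nonneg ha 2).eq_or_lt with h2 | h2
        · exact ⟨0, le_rfl, by norm_num, by linarith⟩
        · exact ⟨m / a ^ 2, div_nonneg hm h2.le, (div_le_iff₀ h2).2 hm4,
            (div_mul_cancel₀ _ h2.ne').symm⟩
      exact hA a eta mu ha h he he1 hmu hmu4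
    · obtain ⟨n, hn⟩ : ∃ n, n = √m := ⟨_, rfl⟩
      have hm0 : 0 < m := lt_of_le_of_lt (by positivity) hm4
      have hn0 : 0 < n := hn ▸ Real.sqrt_pos.2 hm0
      have hn2 : n ^ 2 = m := hn ▸ Real.sq_sqrt hm
      have hn1 : n ≤ 14143 / 10000 :=
        le_of_pow_le_pow_left₀ two_ne_zero (by norm_num) (by rw [hn2]; linarith)
      have ht : a / n ≤ 1 / 2 := by
        rw [div_le_iff₀ hn0]
        exact le_of_pow_le_pow_left₀ two_ne_zero (by positivity) (by rw [mul_pow, hn2]; linarith)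
      have e := hB (a / n) eta n (div_nonneg ha hn0.le) ht he he1 hn0.le hn1
      rwa [div_mul_cancel₀ _ hn0.ne', hn2] at e
  · obtain ⟨w, hw, hw1, rfl⟩ :
        ∃ w, 0 ≤ w ∧ w ≤ 1 ∧ C = w * a ^ 3 + (1 - w) * ((3 * a ^ 2 - 1) / 2) := by
      rcases (show 0 ≤ a ^ 3 - (3 * a ^ 2 - 1) / 2 by linarith).eq_or_lt with hd | hd
      · exact ⟨1, zero_le_one, le_rfl, by linarith⟩
      · refine ⟨(C - (3 * a ^ 2 - 1) / 2) / (a ^ 3 - (3 * a ^ 2 - 1) / 2),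
          div_nonneg (by linarith) hd.le, (div_le_one hd).2 (by linarith), ?_⟩
        linear_combination (-1 : ℝ) *
          div_mul_cancel₀ (C - (3 * a ^ 2 - 1) / 2) hd.ne'
    exact hC a w m h ha1 hw hw1 hm hm2

end Vale.Agent.P154.NegMid
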