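import Vale.Agent.P154.NegMid.Defs

/-!
P154 NegMid: the closing polynomial inequality of the three-atom tangent certificate, in
`a` with `a ^ 2 = S`, `C`, `l = |lam|` and the tangent point `m`.
-/

namespace Vale.Agent.P154.NegMid

/-- Lower envelope of the vertex side beyond `55/6 S`. -/
noncomputable def envF (S C : ℝ) : ℝ :=
  22716 / 10000 * S ^ 2 - 9777 / 10000 * S ^ 3 + 25745 / 10000 * (S * C) -
    19623 / 10000 * C ^ 2 - 12693 / 10000 * (S ^ 2 * C) + 57660 / 10000 * S ^ 4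

/-- Upper envelope of the edge side beyond `55/6 S`. -/
noncomputable def envV (S C : ℝ) : ℝ :=
  29957 / 10000 * S ^ 2 + 22298 / 10000 * S ^ 3 + 68 / 10000 * (S * C) - 64442 / 10000 * C ^ 2

/-- Lower envelope of the second atom minus `11/12` times the first. -/
noncomputable def envD1 (S C : ℝ) : ℝ :=
  C / 36 - 536 / 10000 * S ^ 2 - 617 / 10000 * S ^ 3 - 281 / 10000 * (S * C) +
    4586 / 10000 * C ^ 2 + 14366 / 10000 * (S ^ 2 * C)

/-- Upper envelope of the third atom minus `3/4` times the first. -/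
noncomputable def envD2 (S C : ℝ) : ℝ :=
  C / 24 + 298 / 10000 * S ^ 2 + 6509 / 10000 * S ^ 3 + 3905 / 10000 * (S * C)

/-- Upper envelope of the first atom beyond `S`. -/
noncomputable def envG (S C : ℝ) : ℝ :=
  -(2 / 3) * C + 10499 / 10000 * S ^ 2 + 118523 / 10000 * S ^ 3

/-- `envV` after one edge, times `d = 1 / l ^ 2`. -/
noncomputable def edV (S C l : ℝ) : ℝ :=
  29957 / 10000 * (l ^ 2 * S ^ 2) + 22298 / 10000 * (l ^ 4 * S ^ 3) -
    68 / 10000 * (l ^ 3 * (S * C)) - 64442 / 10000 * (l ^ 4 * C ^ 2)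

/-- `envD1` after one edge, times `d = 1 / l ^ 2`. -/
noncomputable def edD1 (S C l : ℝ) : ℝ :=
  -(l * C) / 36 - 536 / 10000 * (l ^ 2 * S ^ 2) - 617 / 10000 * (l ^ 4 * S ^ 3) +
    281 / 10000 * (l ^ 3 * (S * C)) + 4586 / 10000 * (l ^ 4 * C ^ 2) -
    14366 / 10000 * (l ^ 5 * (S ^ 2 * C))

/-- `envD2` after one edge, times `d = 1 / l ^ 2`. -/
noncomputable def edD2 (S C l : ℝ) : ℝ :=
  -(l * C) / 24 + 298 / 10000 * (l ^ 2 * S ^ 2) + 6509 / 10000 * (l ^ 4 * S ^ 3) -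
    3905 / 10000 * (l ^ 3 * (S * C))

/-- `envG` after one edge, times `d = 1 / l ^ 2`. -/
noncomputable def edG (S C l : ℝ) : ℝ :=
  2 / 3 * (l * C) + 10499 / 10000 * (l ^ 2 * S ^ 2) + 118523 / 10000 * (l ^ 4 * S ^ 3)

/-- Bound of the square of the third atom minus `3/4` times the first, times `d ^ 2`. -/
noncomputable def edSq (S C l : ℝ) : ℝ :=
  21 / 10000 * (l ^ 2 * C ^ 2) + 54621 / 8187500 * (l ^ 4 * S ^ 4)

/-- The closing expression. -/
noncomputable def closing (κ : ℝ) (L0 L1 U00 U20 U21 : ℝ → ℝ) (a C l m : ℝ) : ℝ :=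
  envF (a ^ 2) C - edV (a ^ 2) C l - 1 / 100 * (a ^ 2) ^ 2 +
    ((-245) * U00 m + 346 * L0 m + (-84) * U20 m) +
    346 * L1 m * edD1 (a ^ 2) C l + (-84) * U21 m * edD2 (a ^ 2) C l +
    (-84) * (κ / 2) * edSq (a ^ 2) C l +
    (-(91 / 100)) * m * (a ^ 2 + edG (a ^ 2) C l - m)

/-- The closing inequality of regular trees with `d` children, `l` near `1 / √d`. -/
def ClosingReg (d : ℕ) (lo hi : ℝ) : Prop :=
  ∀ a C l m : ℝ, 0 ≤ a → a ≤ 1 → |C| ≤ a ^ 3 → (3 * a ^ 2 - 1) / 2 ≤ C → lo ≤ l → l ≤ hi →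
    0 ≤ m → m ≤ 2 →
      0 ≤ closing (1 - 1 / (d : ℝ)) (fun m => hReg d (11 / 12 * m))
        (fun m => hReg' d (11 / 12 * m)) (fun m => hReg d m)
        (fun m => hReg d (3 / 4 * m)) (fun m => hReg' d (3 / 4 * m)) a C l m

/-- The closing inequality of Poisson trees. -/
def ClosingPoi (lo hi : ℝ) : Prop :=
  ∀ a C l m : ℝ, 0 ≤ a → a ≤ 1 → |C| ≤ a ^ 3 → (3 * a ^ 2 - 1) / 2 ≤ C → lo ≤ l → l ≤ hi →
    0 ≤ m → m ≤ 2 →
      0 ≤ closing 1 (fun m => pLo (11 / 12 * m)) (fun m => pLo' (11 / 12 * m))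
        (fun m => pHi m) (fun m => pHi (3 / 4 * m)) (fun m => pHi' (3 / 4 * m)) a C l m

end Vale.Agent.P154.NegMid
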