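import Vale.Agent.P154.Cert.PolyCheck

/-!
P154 NegMid: certified envelopes of the three atoms in `a, b`, the sixth roots of the two smaller
components of `1 + u` over the largest one (generated).
-/

namespace Vale.Agent.P154.NegMid

open PolyCheck

/-- Three times the normalisation. -/
def TT (a b : ℝ) : ℝ := 1 + a ^ 6 + b ^ 6

/-- Six times the numerator of `S`. -/
def S2 (a b : ℝ) : ℝ := (3 - TT a b) ^ 2 + (3 * a ^ 6 - TT a b) ^ 2 + (3 * b ^ 6 - TT a b) ^ 2

/-- Six times the numerator of `C`. -/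
def C3 (a b : ℝ) : ℝ := (3 - TT a b) ^ 3 + (3 * a ^ 6 - TT a b) ^ 3 + (3 * b ^ 6 - TT a b) ^ 3

/-- Numerator of the first defect. -/
def tn0 (a b : ℝ) : ℝ := TT a b - 3 * (a ^ 2 * b ^ 2)

/-- Numerator of the second defect. -/
noncomputable def tn1 (a b : ℝ) : ℝ :=
  TT a b - (a ^ 2 * b + a * b ^ 2 + a ^ 3 * b + a * b ^ 3 + a ^ 3 * b ^ 2 + a ^ 2 * b ^ 3) / 2

/-- Numerator of the third defect. -/
def tn2 (a b : ℝ) : ℝ := TT a b - (a * b + a ^ 4 * b + a * b ^ 4)

/-- Twice the numerators, as expressions in `x = 1 - a`, `y = 1 - b`. -/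
def eT (A B : Ex) : Ex := Ex.c 1 + A ^ 6 + B ^ 6

/-- `S2` as an expression. -/
def eS2 (A B : Ex) : Ex :=
  (Ex.c 3 - eT A B) ^ 2 + (Ex.c 3 * A ^ 6 - eT A B) ^ 2 + (Ex.c 3 * B ^ 6 - eT A B) ^ 2

/-- `C3` as an expression. -/
def eC3 (A B : Ex) : Ex :=
  (Ex.c 3 - eT A B) ^ 3 + (Ex.c 3 * A ^ 6 - eT A B) ^ 3 + (Ex.c 3 * B ^ 6 - eT A B) ^ 3

/-- `2 tn0`. -/
def en0 (A B : Ex) : Ex := Ex.c 2 * eT A B - Ex.c 6 * (A ^ 2 * B ^ 2)

/-- `2 tn1`. -/
def en1 (A B : Ex) : Ex := Ex.c 2 * eT A B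
  - (A ^ 2 * B + A * B ^ 2 + A ^ 3 * B + A * B ^ 3 + A ^ 3 * B ^ 2 + A ^ 2 * B ^ 3)

/-- `2 tn2`. -/
def en2 (A B : Ex) : Ex := Ex.c 2 * eT A B - Ex.c 2 * (A * B + A ^ 4 * B + A * B ^ 4)

/-- A monomial list. -/
def ofMons : List (ℤ × ℕ × ℕ) → Ex
  | [] => Ex.c 0
  | (k, i, j) :: l => Ex.c k * Ex.v 0 ^ i * Ex.v 1 ^ j + ofMons l

/-- Its value. -/
def monVal : List (ℤ × ℕ × ℕ) → ℝ → ℝ → ℝ
  | [], _, _ => 0
  | (k, i, j) :: l, t, y => (k : ℝ) * t ^ i * y ^ j + monVal l t y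

lemma ofMons_eval : ∀ (l : List (ℤ × ℕ × ℕ)) (t y : ℝ), (ofMons l).eval (pt [t, y]) = monVal l t y
  | [], t, y => by simp [ofMons, monVal]
  | (k, i, j) :: l, t, y => by simp [ofMons, monVal, ofMons_eval l t y]

/-- `1 - x`. -/
def fA : Ex := Ex.c 1 - Ex.v 0

/-- `1 - y`. -/
def fB : Ex := Ex.c 1 - Ex.v 1

/-- `1 - t y`. -/
def hA : Ex := Ex.c 1 - Ex.v 0 * Ex.v 1

lemma eT_eval (A B : Ex) (x : ℕ → ℝ) : (eT A B).eval x = TT (A.eval x) (B.eval x) := by
  simp [eT, TT]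

lemma eS2_eval (A B : Ex) (x : ℕ → ℝ) : (eS2 A B).eval x = S2 (A.eval x) (B.eval x) := by
  simp [eS2, S2, eT_eval]

lemma eC3_eval (A B : Ex) (x : ℕ → ℝ) : (eC3 A B).eval x = C3 (A.eval x) (B.eval x) := by
  simp [eC3, C3, eT_eval]

lemma en0_eval (A B : Ex) (x : ℕ → ℝ) : (en0 A B).eval x = 2 * tn0 (A.eval x) (B.eval x) := by
  simp [en0, tn0, eT_eval]
  ring

lemma en1_eval (A B : Ex) (x : ℕ → ℝ) : (en1 A B).eval x = 2 * tn1 (A.eval x) (B.eval x) := by
  simp [en1, tn1, eT_eval]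
  ring

lemma en2_eval (A B : Ex) (x : ℕ → ℝ) : (en2 A B).eval x = 2 * tn2 (A.eval x) (B.eval x) := by
  simp [en2, tn2, eT_eval]
  ring

lemma fA_eval (x y : ℝ) : fA.eval (pt [x, y]) = 1 - x := by simp [fA]

lemma fB_eval (x y : ℝ) : fB.eval (pt [x, y]) = 1 - y := by simp [fB]

/-- `S2` over `y ^ 2` in the chart. -/
def qS : Ex :=
    ofMons [(216, 0, 0),
    (-1080, 0, 1),
    (2790, 0, 2),
    (-4680, 0, 3),
    (5532, 0, 4),
    (-4752, 0, 5),
    (2970, 0, 6),
    (-1320, 0, 7),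
    (396, 0, 8),
    (-72, 0, 9),
    (6, 0, 10),
    (-216, 1, 0),
    (540, 1, 1),
    (-720, 1, 2),
    (540, 1, 3),
    (-216, 1, 4),
    (36, 1, 5),
    (216, 2, 0),
    (540, 2, 1),
    (-1350, 2, 2),
    (1800, 2, 3),
    (-1350, 2, 4),
    (540, 2, 5),
    (-90, 2, 6),
    (-1080, 3, 1),
    (-720, 3, 2),
    (1800, 3, 3),
    (-2400, 3, 4),
    (1800, 3, 5),
    (-720, 3, 6),
    (120, 3, 7),
    (2790, 4, 2),
    (540, 4, 3),
    (-1350, 4, 4),
    (1800, 4, 5),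
    (-1350, 4, 6),
    (540, 4, 7),
    (-90, 4, 8),
    (-4680, 5, 3),
    (-216, 5, 4),
    (540, 5, 5),
    (-720, 5, 6),
    (540, 5, 7),
    (-216, 5, 8),
    (36, 5, 9),
    (5532, 6, 4),
    (36, 6, 5),
    (-90, 6, 6),
    (120, 6, 7),
    (-90, 6, 8),
    (36, 6, 9),
    (-6, 6, 10),
    (-4752, 7, 5),
    (2970, 8, 6),
    (-1320, 9, 7),
    (396, 10, 8),
    (-72, 11, 9),
    (6, 12, 10)]

/-- `C3` over `y ^ 3` in the chart. -/
def qC : Ex :=
    ofMons [(-1296, 0, 0),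
    (9720, 0, 1),
    (-37260, 0, 2),
    (94770, 0, 3),
    (-176688, 0, 4),
    (253638, 0, 5),
    (-287760, 0, 6),
    (261360, 0, 7),
    (-190728, 0, 8),
    (111366, 0, 9),
    (-51408, 0, 10),
    (18360, 0, 11),
    (-4896, 0, 12),
    (918, 0, 13),
    (-108, 0, 14),
    (6, 0, 15),
    (1944, 1, 0),
    (-9720, 1, 1),
    (25110, 1, 2),
    (-42120, 1, 3),
    (49788, 1, 4),
    (-42768, 1, 5),
    (26730, 1, 6),
    (-11880, 1, 7),
    (3564, 1, 8),
    (-648, 1, 9),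
    (54, 1, 10),
    (1944, 2, 0),
    (-9720, 2, 1),
    (30780, 2, 2),
    (-67635, 2, 3),
    (107244, 2, 4),
    (-124794, 2, 5),
    (106920, 2, 6),
    (-66825, 2, 7),
    (29700, 2, 8),
    (-8910, 2, 9),
    (1620, 2, 10),
    (-135, 2, 11),
    (-1296, 3, 0),
    (-9720, 3, 1),
    (30780, 3, 2),
    (-64800, 3, 3),
    (108000, 3, 4),
    (-150120, 3, 5),
    (167580, 3, 6),
    (-142560, 3, 7),
    (89100, 3, 8),
    (-39600, 3, 9),
    (11880, 3, 10),
    (-2160, 3, 11),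
    (180, 3, 12),
    (9720, 4, 1),
    (25110, 4, 2),
    (-67635, 4, 3),
    (108000, 4, 4),
    (-125550, 4, 5),
    (130410, 4, 6),
    (-128655, 4, 7),
    (106920, 4, 8),
    (-66825, 4, 9),
    (29700, 4, 10),
    (-8910, 4, 11),
    (1620, 4, 12),
    (-135, 4, 13),
    (-37260, 5, 2),
    (-42120, 5, 3),
    (107244, 5, 4),
    (-150120, 5, 5),
    (130410, 5, 6),
    (-84240, 5, 7),
    (56808, 5, 8),
    (-42768, 5, 9),
    (26730, 5, 10),
    (-11880, 5, 11),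
    (3564, 5, 12),
    (-648, 5, 13),
    (54, 5, 14),
    (94770, 6, 3),
    (49788, 6, 4),
    (-124794, 6, 5),
    (167580, 6, 6),
    (-128655, 6, 7),
    (56808, 6, 8),
    (-16596, 6, 9),
    (7128, 6, 10),
    (-4455, 6, 11),
    (1980, 6, 12),
    (-594, 6, 13),
    (108, 6, 14),
    (-9, 6, 15),
    (-176688, 7, 4),
    (-42768, 7, 5),
    (106920, 7, 6),
    (-142560, 7, 7),
    (106920, 7, 8),
    (-42768, 7, 9),
    (7128, 7, 10),
    (253638, 8, 5),
    (26730, 8, 6),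
    (-66825, 8, 7),
    (89100, 8, 8),
    (-66825, 8, 9),
    (26730, 8, 10),
    (-4455, 8, 11),
    (-287760, 9, 6),
    (-11880, 9, 7),
    (29700, 9, 8),
    (-39600, 9, 9),
    (29700, 9, 10),
    (-11880, 9, 11),
    (1980, 9, 12),
    (261360, 10, 7),
    (3564, 10, 8),
    (-8910, 10, 9),
    (11880, 10, 10),
    (-8910, 10, 11),
    (3564, 10, 12),
    (-594, 10, 13),
    (-190728, 11, 8),
    (-648, 11, 9),
    (1620, 11, 10),
    (-2160, 11, 11),
    (1620, 11, 12),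
    (-648, 11, 13),
    (108, 11, 14),
    (111366, 12, 9),
    (54, 12, 10),
    (-135, 12, 11),
    (180, 12, 12),
    (-135, 12, 13),
    (54, 12, 14),
    (-9, 12, 15),
    (-51408, 13, 10),
    (18360, 14, 11),
    (-4896, 15, 12),
    (918, 16, 13),
    (-108, 17, 14),
    (6, 18, 15)]

lemma qS_spec (t y : ℝ) : S2 (1 - t * y) (1 - y) = y ^ 2 * qS.eval (pt [t, y]) := by
  simp only [S2, TT, qS, ofMons_eval, monVal]
  push_cast
  ring

lemma qC_spec (t y : ℝ) : C3 (1 - t * y) (1 - y) = y ^ 3 * qC.eval (pt [t, y]) := by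
  simp only [C3, TT, qC, ofMons_eval, monVal]
  push_cast
  ring

/-- Base of the envelopes. -/
noncomputable def baseV (a b : ℝ) : ℝ :=
  36 * (-245 * tn0 a b + 346 * tn1 a b - 84 * tn2 a b) * TT a b - 55 * S2 a b

/-- The base as an expression. -/
def eBaseV (A B : Ex) : Ex :=
  Ex.c (-4410) * en0 A B * eT A B + Ex.c 6228 * en1 A B * eT A B - Ex.c 1512 * en2 A B * eT A B - Ex.c 55 * eS2 A B

lemma eBaseV_eval (A B : Ex) (x : ℕ → ℝ) :
    (eBaseV A B).eval x = baseV (A.eval x) (B.eval x) := by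
  simp only [eBaseV, baseV, eT_eval, eS2_eval, eC3_eval, en0_eval, en1_eval, en2_eval,
    eval_add, eval_sub, eval_mul, eval_pow, eval_c]
  push_cast
  ring

/-- The base over `y ^ 4` in the chart. -/
def qV : Ex :=
    ofMons [(13842, 0, 0),
    (-84240, 0, 1),
    (199668, 0, 2),
    (-243432, 0, 3),
    (177570, 0, 4),
    (-79824, 0, 5),
    (21636, 0, 6),
    (-3384, 0, 7),
    (282, 0, 8),
    (-27684, 1, 0),
    (155232, 1, 1),
    (-304164, 1, 2),
    (253008, 1, 3),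
    (-101700, 1, 4),
    (4068, 1, 5),
    (11556, 1, 6),
    (-3024, 1, 7),
    (41526, 2, 0),
    (-84240, 2, 1),
    (-64134, 2, 2),
    (351540, 2, 3),
    (-329490, 2, 4),
    (168768, 2, 5),
    (-48276, 2, 6),
    (6228, 2, 7),
    (-27684, 3, 0),
    (-84240, 3, 1),
    (334824, 3, 2),
    (-341460, 3, 3),
    (-39060, 3, 4),
    (102228, 3, 5),
    (-43956, 3, 6),
    (6228, 3, 7),
    (13842, 4, 0),
    (155232, 4, 1),
    (-64134, 4, 2),
    (-341460, 4, 3),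
    (561330, 4, 4),
    (-203364, 4, 5),
    (44478, 4, 6),
    (-3024, 4, 7),
    (-84240, 5, 1),
    (-304164, 5, 2),
    (351540, 5, 3),
    (-39060, 5, 4),
    (-203364, 5, 5),
    (55944, 5, 6),
    (-9324, 5, 7),
    (199668, 6, 2),
    (253008, 6, 3),
    (-329490, 6, 4),
    (102228, 6, 5),
    (44478, 6, 6),
    (-9324, 6, 7),
    (1554, 6, 8),
    (-243432, 7, 3),
    (-101700, 7, 4),
    (168768, 7, 5),
    (-43956, 7, 6),
    (-3024, 7, 7),
    (177570, 8, 4),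
    (4068, 8, 5),
    (-48276, 8, 6),
    (6228, 8, 7),
    (-79824, 9, 5),
    (11556, 9, 6),
    (6228, 9, 7),
    (21636, 10, 6),
    (-3024, 10, 7),
    (-3384, 11, 7),
    (282, 12, 8)]

lemma qV_spec (t y : ℝ) : baseV (1 - t * y) (1 - y) = y ^ 4 * qV.eval (pt [t, y]) := by
  simp only [baseV, S2, tn0, tn1, tn2, TT, qV, ofMons_eval, monVal]
  push_cast
  ring

/-- Base of the envelopes. -/
noncomputable def base1 (a b : ℝ) : ℝ :=
  (216 * tn1 a b - 198 * tn0 a b) * TT a b ^ 2 - C3 a b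

/-- The base as an expression. -/
def eBase1 (A B : Ex) : Ex :=
  (Ex.c 108 * en1 A B - Ex.c 99 * en0 A B) * eT A B ^ 2 - eC3 A B

lemma eBase1_eval (A B : Ex) (x : ℕ → ℝ) :
    (eBase1 A B).eval x = base1 (A.eval x) (B.eval x) := by
  simp only [eBase1, base1, eT_eval, eS2_eval, eC3_eval, en0_eval, en1_eval, en2_eval,
    eval_add, eval_sub, eval_mul, eval_pow, eval_c]
  push_cast
  ring

/-- The base over `y ^ 4` in the chart. -/
def q1 : Ex :=
    ofMons [(-2106, 0, 0),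
    (8424, 0, 1),
    (-13500, 0, 2),
    (1512, 0, 3),
    (48384, 0, 4),
    (-131532, 0, 5),
    (201366, 0, 6),
    (-209304, 0, 7),
    (156204, 0, 8),
    (-85212, 0, 9),
    (33858, 0, 10),
    (-9576, 0, 11),
    (1836, 0, 12),
    (-216, 0, 13),
    (12, 0, 14),
    (4212, 1, 0),
    (-6318, 1, 1),
    (-14256, 1, 2),
    (75708, 1, 3),
    (-201852, 1, 4),
    (349974, 1, 5),
    (-414936, 1, 6),
    (345708, 1, 7),
    (-204660, 1, 8),
    (85266, 1, 9),
    (-23976, 1, 10),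
    (4104, 1, 11),
    (-324, 1, 12),
    (-6318, 2, 0),
    (8424, 2, 1),
    (-10125, 2, 2),
    (25596, 2, 3),
    (-864, 2, 4),
    (-7236, 2, 5),
    (-48087, 2, 6),
    (111780, 2, 7),
    (-115236, 2, 8),
    (71496, 2, 9),
    (-29241, 2, 10),
    (7992, 2, 11),
    (-1350, 2, 12),
    (108, 2, 13),
    (4212, 3, 0),
    (8424, 3, 1),
    (-19872, 3, 2),
    (32184, 3, 3),
    (-107676, 3, 4),
    (57384, 3, 5),
    (28728, 3, 6),
    (-24084, 3, 7),
    (-35892, 3, 8),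
    (55836, 3, 9),
    (-32616, 3, 10),
    (9972, 3, 11),
    (-1620, 3, 12),
    (108, 3, 13),
    (-2106, 4, 0),
    (-6318, 4, 1),
    (-10125, 4, 2),
    (32184, 4, 3),
    (-810, 4, 4),
    (95202, 4, 5),
    (58725, 4, 6),
    (-276696, 4, 7),
    (312039, 4, 8),
    (-185220, 4, 9),
    (62370, 4, 10),
    (-11340, 4, 11),
    (945, 4, 12),
    (8424, 5, 1),
    (-14256, 5, 2),
    (25596, 5, 3),
    (-107676, 5, 4),
    (95202, 5, 5),
    (-372384, 5, 6),
    (298944, 5, 7),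
    (-60480, 5, 8),
    (-72198, 5, 9),
    (66528, 5, 10),
    (-24948, 5, 11),
    (4536, 5, 12),
    (-378, 5, 13),
    (-13500, 6, 2),
    (75708, 6, 3),
    (-864, 6, 4),
    (57384, 6, 5),
    (58725, 6, 6),
    (298944, 6, 7),
    (-306864, 6, 8),
    (137592, 6, 9),
    (-23247, 6, 10),
    (-6300, 6, 11),
    (4158, 6, 12),
    (-756, 6, 13),
    (63, 6, 14),
    (1512, 7, 3),
    (-201852, 7, 4),
    (-7236, 7, 5),
    (28728, 7, 6),
    (-276696, 7, 7),
    (-60480, 7, 8),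
    (137592, 7, 9),
    (-67392, 7, 10),
    (15984, 7, 11),
    (-1944, 7, 12),
    (48384, 8, 4),
    (349974, 8, 5),
    (-48087, 8, 6),
    (-24084, 8, 7),
    (312039, 8, 8),
    (-72198, 8, 9),
    (-23247, 8, 10),
    (15984, 8, 11),
    (-2700, 8, 12),
    (216, 8, 13),
    (-131532, 9, 5),
    (-414936, 9, 6),
    (111780, 9, 7),
    (-35892, 9, 8),
    (-185220, 9, 9),
    (66528, 9, 10),
    (-6300, 9, 11),
    (-1944, 9, 12),
    (216, 9, 13),
    (201366, 10, 6),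
    (345708, 10, 7),
    (-115236, 10, 8),
    (55836, 10, 9),
    (62370, 10, 10),
    (-24948, 10, 11),
    (4158, 10, 12),
    (-209304, 11, 7),
    (-204660, 11, 8),
    (71496, 11, 9),
    (-32616, 11, 10),
    (-11340, 11, 11),
    (4536, 11, 12),
    (-756, 11, 13),
    (156204, 12, 8),
    (85266, 12, 9),
    (-29241, 12, 10),
    (9972, 12, 11),
    (945, 12, 12),
    (-378, 12, 13),
    (63, 12, 14),
    (-85212, 13, 9),
    (-23976, 13, 10),
    (7992, 13, 11),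
    (-1620, 13, 12),
    (33858, 14, 10),
    (4104, 14, 11),
    (-1350, 14, 12),
    (108, 14, 13),
    (-9576, 15, 11),
    (-324, 15, 12),
    (108, 15, 13),
    (1836, 16, 12),
    (-216, 17, 13),
    (12, 18, 14)]

lemma q1_spec (t y : ℝ) : base1 (1 - t * y) (1 - y) = y ^ 4 * q1.eval (pt [t, y]) := by
  simp only [base1, C3, tn0, tn1, TT, q1, ofMons_eval, monVal]
  push_cast
  ring

/-- Base of the envelopes. -/
noncomputable def base3 (a b : ℝ) : ℝ :=
  (144 * tn2 a b - 108 * tn0 a b) * TT a b ^ 2 - C3 a b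

/-- The base as an expression. -/
def eBase3 (A B : Ex) : Ex :=
  (Ex.c 72 * en2 A B - Ex.c 54 * en0 A B) * eT A B ^ 2 - eC3 A B

lemma eBase3_eval (A B : Ex) (x : ℕ → ℝ) :
    (eBase3 A B).eval x = base3 (A.eval x) (B.eval x) := by
  simp only [eBase3, base3, eT_eval, eS2_eval, eC3_eval, en0_eval, en1_eval, en2_eval,
    eval_add, eval_sub, eval_mul, eval_pow, eval_c]
  push_cast
  ring

/-- The base over `y ^ 4` in the chart. -/
def q3 : Ex :=
    ofMons [(-972, 0, 0),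
    (2916, 0, 1),
    (6426, 0, 2),
    (-50544, 0, 3),
    (152982, 0, 4),
    (-299688, 0, 5),
    (416412, 0, 6),
    (-424008, 0, 7),
    (320814, 0, 8),
    (-180648, 0, 9),
    (74844, 0, 10),
    (-22176, 0, 11),
    (4446, 0, 12),
    (-540, 0, 13),
    (30, 0, 14),
    (1944, 1, 0),
    (-486, 1, 1),
    (-38232, 1, 2),
    (138348, 1, 3),
    (-333936, 1, 4),
    (583686, 1, 5),
    (-733464, 1, 6),
    (666396, 1, 7),
    (-440856, 1, 8),
    (211770, 1, 9),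
    (-72288, 1, 10),
    (16632, 1, 11),
    (-2304, 1, 12),
    (144, 1, 13),
    (-2916, 2, 0),
    (2916, 2, 1),
    (33939, 2, 2),
    (-81972, 2, 3),
    (233334, 2, 4),
    (-423144, 2, 5),
    (476361, 2, 6),
    (-356508, 2, 7),
    (187002, 2, 8),
    (-71604, 2, 9),
    (20007, 2, 10),
    (-3672, 2, 11),
    (324, 2, 12),
    (1944, 3, 0),
    (2916, 3, 1),
    (-48384, 3, 2),
    (44064, 3, 3),
    (-181656, 3, 4),
    (218196, 3, 5),
    (-100224, 3, 6),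
    (324, 3, 7),
    (2160, 3, 8),
    (20376, 3, 9),
    (-16848, 3, 10),
    (5148, 3, 11),
    (-576, 3, 12),
    (-972, 4, 0),
    (-486, 4, 1),
    (33939, 4, 2),
    (44064, 4, 3),
    (140670, 4, 4),
    (-80514, 4, 5),
    (92475, 4, 6),
    (-225288, 4, 7),
    (275157, 4, 8),
    (-182340, 4, 9),
    (64566, 4, 10),
    (-9828, 4, 11),
    (-117, 4, 12),
    (144, 4, 13),
    (2916, 5, 1),
    (-38232, 5, 2),
    (-81972, 5, 3),
    (-181656, 5, 4),
    (-80514, 5, 5),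
    (-24624, 5, 6),
    (61992, 5, 7),
    (41904, 5, 8),
    (-111618, 5, 9),
    (93960, 5, 10),
    (-40284, 5, 11),
    (8424, 5, 12),
    (-702, 5, 13),
    (6426, 6, 2),
    (138348, 6, 3),
    (233334, 6, 4),
    (218196, 6, 5),
    (92475, 6, 6),
    (61992, 6, 7),
    (-136404, 6, 8),
    (66600, 6, 9),
    (-14661, 6, 10),
    (-5580, 6, 11),
    (5706, 6, 12),
    (-1404, 6, 13),
    (117, 6, 14),
    (-50544, 7, 3),
    (-333936, 7, 4),
    (-423144, 7, 5),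
    (-100224, 7, 6),
    (-225288, 7, 7),
    (41904, 7, 8),
    (66600, 7, 9),
    (-27936, 7, 10),
    (7776, 7, 11),
    (-2880, 7, 12),
    (288, 7, 13),
    (152982, 8, 4),
    (583686, 8, 5),
    (476361, 8, 6),
    (324, 8, 7),
    (275157, 8, 8),
    (-111618, 8, 9),
    (-14661, 8, 10),
    (7776, 8, 11),
    (648, 8, 12),
    (-299688, 9, 5),
    (-733464, 9, 6),
    (-356508, 9, 7),
    (2160, 9, 8),
    (-182340, 9, 9),
    (93960, 9, 10),
    (-5580, 9, 11),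
    (-2880, 9, 12),
    (416412, 10, 6),
    (666396, 10, 7),
    (187002, 10, 8),
    (20376, 10, 9),
    (64566, 10, 10),
    (-40284, 10, 11),
    (5706, 10, 12),
    (288, 10, 13),
    (-424008, 11, 7),
    (-440856, 11, 8),
    (-71604, 11, 9),
    (-16848, 11, 10),
    (-9828, 11, 11),
    (8424, 11, 12),
    (-1404, 11, 13),
    (320814, 12, 8),
    (211770, 12, 9),
    (20007, 12, 10),
    (5148, 12, 11),
    (-117, 12, 12),
    (-702, 12, 13),
    (117, 12, 14),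
    (-180648, 13, 9),
    (-72288, 13, 10),
    (-3672, 13, 11),
    (-576, 13, 12),
    (144, 13, 13),
    (74844, 14, 10),
    (16632, 14, 11),
    (324, 14, 12),
    (-22176, 15, 11),
    (-2304, 15, 12),
    (4446, 16, 12),
    (144, 16, 13),
    (-540, 17, 13),
    (30, 18, 14)]

lemma q3_spec (t y : ℝ) : base3 (1 - t * y) (1 - y) = y ^ 4 * q3.eval (pt [t, y]) := by
  simp only [base3, C3, tn0, tn2, TT, q3, ofMons_eval, monVal]
  push_cast
  ring

/-- Base of the envelopes. -/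
noncomputable def baseg (a b : ℝ) : ℝ :=
  18 * tn0 a b * TT a b ^ 2 - 3 * S2 a b * TT a b + 2 * C3 a b

/-- The base as an expression. -/
def eBaseg (A B : Ex) : Ex :=
  Ex.c 9 * en0 A B * eT A B ^ 2 - Ex.c 3 * eS2 A B * eT A B + Ex.c 2 * eC3 A B

lemma eBaseg_eval (A B : Ex) (x : ℕ → ℝ) :
    (eBaseg A B).eval x = baseg (A.eval x) (B.eval x) := by
  simp only [eBaseg, baseg, eT_eval, eS2_eval, eC3_eval, en0_eval, en1_eval, en2_eval,
    eval_add, eval_sub, eval_mul, eval_pow, eval_c]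
  push_cast
  ring

/-- The base over `y ^ 4` in the chart. -/
def qg : Ex :=
    ofMons [(7776, 0, 0),
    (-41472, 0, 1),
    (121392, 0, 2),
    (-251856, 0, 3),
    (398358, 0, 4),
    (-491172, 0, 5),
    (475794, 0, 6),
    (-363096, 0, 7),
    (217926, 0, 8),
    (-102060, 0, 9),
    (36666, 0, 10),
    (-9792, 0, 11),
    (1836, 0, 12),
    (-216, 0, 13),
    (12, 0, 14),
    (-15552, 1, 0),
    (49248, 1, 1),
    (-94608, 1, 2),
    (153144, 1, 3),
    (-208224, 1, 4),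
    (218484, 1, 5),
    (-168696, 1, 6),
    (93852, 1, 7),
    (-36720, 1, 8),
    (9612, 1, 9),
    (-1512, 1, 10),
    (108, 1, 11),
    (23328, 2, 0),
    (-41472, 2, 1),
    (82296, 2, 2),
    (-179496, 2, 3),
    (254988, 2, 4),
    (-217296, 2, 5),
    (102006, 2, 6),
    (-10692, 2, 7),
    (-18414, 2, 8),
    (13176, 2, 9),
    (-4374, 2, 10),
    (756, 2, 11),
    (-54, 2, 12),
    (-15552, 3, 0),
    (-41472, 3, 1),
    (71712, 3, 2),
    (-122040, 3, 3),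
    (307152, 3, 4),
    (-508536, 3, 5),
    (521856, 3, 6),
    (-350352, 3, 7),
    (158400, 3, 8),
    (-47520, 3, 9),
    (8640, 3, 10),
    (-720, 3, 11),
    (7776, 4, 0),
    (49248, 4, 1),
    (82296, 4, 2),
    (-122040, 4, 3),
    (58050, 4, 4),
    (-132300, 4, 5),
    (308610, 4, 6),
    (-367200, 4, 7),
    (259740, 4, 8),
    (-118800, 4, 9),
    (35640, 4, 10),
    (-6480, 4, 11),
    (540, 4, 12),
    (-41472, 5, 1),
    (-94608, 5, 2),
    (-179496, 5, 3),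
    (307152, 5, 4),
    (-132300, 5, 5),
    (11880, 5, 6),
    (-60156, 5, 7),
    (122688, 5, 8),
    (-100872, 5, 9),
    (47520, 5, 10),
    (-14256, 5, 11),
    (2592, 5, 12),
    (-216, 5, 13),
    (121392, 6, 2),
    (153144, 6, 3),
    (254988, 6, 4),
    (-508536, 6, 5),
    (308610, 6, 6),
    (-60156, 6, 7),
    (-17910, 6, 8),
    (-4320, 6, 9),
    (14796, 6, 10),
    (-7920, 6, 11),
    (2376, 6, 12),
    (-432, 6, 13),
    (36, 6, 14),
    (-251856, 7, 3),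
    (-208224, 7, 4),
    (-217296, 7, 5),
    (521856, 7, 6),
    (-367200, 7, 7),
    (122688, 7, 8),
    (-4320, 7, 9),
    (-6912, 7, 10),
    (864, 7, 11),
    (398358, 8, 4),
    (218484, 8, 5),
    (102006, 8, 6),
    (-350352, 8, 7),
    (259740, 8, 8),
    (-100872, 8, 9),
    (14796, 8, 10),
    (864, 8, 11),
    (-108, 8, 12),
    (-491172, 9, 5),
    (-168696, 9, 6),
    (-10692, 9, 7),
    (158400, 9, 8),
    (-118800, 9, 9),
    (47520, 9, 10),
    (-7920, 9, 11),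
    (475794, 10, 6),
    (93852, 10, 7),
    (-18414, 10, 8),
    (-47520, 10, 9),
    (35640, 10, 10),
    (-14256, 10, 11),
    (2376, 10, 12),
    (-363096, 11, 7),
    (-36720, 11, 8),
    (13176, 11, 9),
    (8640, 11, 10),
    (-6480, 11, 11),
    (2592, 11, 12),
    (-432, 11, 13),
    (217926, 12, 8),
    (9612, 12, 9),
    (-4374, 12, 10),
    (-720, 12, 11),
    (540, 12, 12),
    (-216, 12, 13),
    (36, 12, 14),
    (-102060, 13, 9),
    (-1512, 13, 10),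
    (756, 13, 11),
    (36666, 14, 10),
    (108, 14, 11),
    (-54, 14, 12),
    (-9792, 15, 11),
    (1836, 16, 12),
    (-216, 17, 13),
    (12, 18, 14)]

lemma qg_spec (t y : ℝ) : baseg (1 - t * y) (1 - y) = y ^ 4 * qg.eval (pt [t, y]) := by
  simp only [baseg, S2, C3, tn0, TT, qg, ofMons_eval, monVal]
  push_cast
  ring

end Vale.Agent.P154.NegMid
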