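import Vale.Agent.P154.NegMid.EnvBase

/-!
P154 NegMid: certified envelope D1 (generated).
-/

namespace Vale.Agent.P154.NegMid

open PolyCheck

/-- Scaled gap of envelope d1. -/
noncomputable def gapd1 (a b : ℝ) : ℝ :=
  (540000) * base1 a b * TT a b ^ 4
    + (173664) * (S2 a b ^ 2 * C3 a b ^ 0 * TT a b ^ 3)
    + (33318) * (S2 a b ^ 3 * C3 a b ^ 0 * TT a b ^ 1)
    + (91044) * (S2 a b ^ 1 * C3 a b ^ 1 * TT a b ^ 2)
    + (-1485864) * (S2 a b ^ 0 * C3 a b ^ 2 * TT a b ^ 1)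
    + (-775764) * (S2 a b ^ 2 * C3 a b ^ 1 * TT a b ^ 0)

/-- The gap as an expression. -/
def eGapd1 (A B : Ex) : Ex :=
  Ex.c (540000) * eBase1 A B * eT A B ^ 4
    + Ex.c (173664) * (eS2 A B ^ 2 * eC3 A B ^ 0 * eT A B ^ 3)
    + Ex.c (33318) * (eS2 A B ^ 3 * eC3 A B ^ 0 * eT A B ^ 1)
    + Ex.c (91044) * (eS2 A B ^ 1 * eC3 A B ^ 1 * eT A B ^ 2)
    + Ex.c (-1485864) * (eS2 A B ^ 0 * eC3 A B ^ 2 * eT A B ^ 1)
    + Ex.c (-775764) * (eS2 A B ^ 2 * eC3 A B ^ 1 * eT A B ^ 0)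

/-- The gap over `y ^ 4` in the chart. -/
def cGapd1 : Ex :=
  Ex.c (540000) * q1 * eT hA fB ^ 4
    + Ex.c (173664) * (qS ^ 2 * qC ^ 0 * eT hA fB ^ 3) * Ex.v 1 ^ 0
    + Ex.c (33318) * (qS ^ 3 * qC ^ 0 * eT hA fB ^ 1) * Ex.v 1 ^ 2
    + Ex.c (91044) * (qS ^ 1 * qC ^ 1 * eT hA fB ^ 2) * Ex.v 1 ^ 1
    + Ex.c (-1485864) * (qS ^ 0 * qC ^ 2 * eT hA fB ^ 1) * Ex.v 1 ^ 2
    + Ex.c (-775764) * (qS ^ 2 * qC ^ 1 * eT hA fB ^ 0) * Ex.v 1 ^ 3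

lemma cGapd1_spec (t y : ℝ) : gapd1 (1 - t * y) (1 - y) = y ^ 4 * cGapd1.eval (pt [t, y]) := by
  simp only [gapd1, q1_spec, qS_spec, qC_spec, cGapd1, eval_add, eval_mul, eval_pow, eval_c]
  simp only [TT, eT, hA, fB, eval_add, eval_sub, eval_mul, eval_pow, eval_c, eval_v, pt_zero, pt_one]
  push_cast
  ring

lemma eGapd1_spec (x y : ℝ) : gapd1 (1 - x) (1 - y) = (eGapd1 fA fB).eval (pt [x, y]) := by
  simp only [gapd1, eGapd1, eBase1_eval, eT_eval, eS2_eval, eC3_eval, fA_eval,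
    fB_eval, eval_add, eval_mul, eval_pow, eval_c]
  push_cast
  ring

theorem chkd1_near : check 2 cGapd1
    [⟨0, 1, 1⟩, ⟨0, 987, 10000⟩] .leaf = true := by
  decide +kernel

theorem chkd1_far : check 2 (eGapd1 fA fB)
    [⟨0, 987, 10000⟩, ⟨987, 3571, 10000⟩] .leaf = true := by
  decide +kernel

end Vale.Agent.P154.NegMid
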