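import Vale.Agent.P154.NegMid.EnvBase

/-!
P154 NegMid: certified envelope F (generated).
-/

namespace Vale.Agent.P154.NegMid

open PolyCheck

/-- Scaled gap of envelope F. -/
noncomputable def gapF (a b : ℝ) : ℝ :=
  (3240000) * baseV a b * TT a b ^ 6
    + (-7359984) * (S2 a b ^ 2 * C3 a b ^ 0 * TT a b ^ 4)
    + (527958) * (S2 a b ^ 3 * C3 a b ^ 0 * TT a b ^ 2)
    + (-8341380) * (S2 a b ^ 1 * C3 a b ^ 1 * TT a b ^ 3)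
    + (6357852) * (S2 a b ^ 0 * C3 a b ^ 2 * TT a b ^ 2)
    + (685422) * (S2 a b ^ 2 * C3 a b ^ 1 * TT a b ^ 1)
    + (-518940) * (S2 a b ^ 4 * C3 a b ^ 0 * TT a b ^ 0)

/-- The gap over `y ^ 4` in the chart. -/
def cGapF : Ex :=
  Ex.c (3240000) * qV * eT hA fB ^ 6
    + Ex.c (-7359984) * (qS ^ 2 * qC ^ 0 * eT hA fB ^ 4) * Ex.v 1 ^ 0
    + Ex.c (527958) * (qS ^ 3 * qC ^ 0 * eT hA fB ^ 2) * Ex.v 1 ^ 2
    + Ex.c (-8341380) * (qS ^ 1 * qC ^ 1 * eT hA fB ^ 3) * Ex.v 1 ^ 1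
    + Ex.c (6357852) * (qS ^ 0 * qC ^ 2 * eT hA fB ^ 2) * Ex.v 1 ^ 2
    + Ex.c (685422) * (qS ^ 2 * qC ^ 1 * eT hA fB ^ 1) * Ex.v 1 ^ 3
    + Ex.c (-518940) * (qS ^ 4 * qC ^ 0 * eT hA fB ^ 0) * Ex.v 1 ^ 4

lemma cGapF_spec (t y : ℝ) : gapF (1 - t * y) (1 - y) = y ^ 4 * cGapF.eval (pt [t, y]) := by
  simp only [gapF, qV_spec, qS_spec, qC_spec, cGapF, eval_add, eval_mul, eval_pow, eval_c]
  simp only [TT, eT, hA, fB, eval_add, eval_sub, eval_mul, eval_pow, eval_c, eval_v, pt_zero, pt_one]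
  push_cast
  ring

theorem chkF_near : check 2 cGapF
    [⟨0, 1, 1⟩, ⟨0, 1, 1⟩] (.cut 1 (.cut 0 (.cut 1 .leaf (.cut 0 (.cut 1 .leaf (.cut 0 (.cut 1 .leaf .leaf) .leaf)) .leaf)) (.cut 1 .leaf (.cut 0 .leaf (.cut 1 .leaf .leaf)))) .leaf) = true := by
  decide +kernel

end Vale.Agent.P154.NegMid
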