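import Vale.Agent.P154.NegMid.EnvBase

/-!
P154 NegMid: certified envelope Hi (generated).
-/

namespace Vale.Agent.P154.NegMid

open PolyCheck

/-- Scaled gap of envelope hi. -/
noncomputable def gaphi (a b : ℝ) : ℝ :=
  (-810000) * base3 a b * TT a b ^ 0

/-- The gap as an expression. -/
def eGaphi (A B : Ex) : Ex :=
  Ex.c (-810000) * eBase3 A B * eT A B ^ 0

/-- The gap over `y ^ 4` in the chart. -/
def cGaphi : Ex :=
  Ex.c (-810000) * q3 * eT hA fB ^ 0

lemma cGaphi_spec (t y : ℝ) : gaphi (1 - t * y) (1 - y) = y ^ 4 * cGaphi.eval (pt [t, y]) := by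
  simp only [gaphi, q3_spec, qS_spec, qC_spec, cGaphi, eval_add, eval_mul, eval_pow, eval_c]
  simp only [TT, eT, hA, fB, eval_add, eval_sub, eval_mul, eval_pow, eval_c, eval_v, pt_zero, pt_one]
  push_cast
  ring

lemma eGaphi_spec (x y : ℝ) : gaphi (1 - x) (1 - y) = (eGaphi fA fB).eval (pt [x, y]) := by
  simp only [gaphi, eGaphi, eBase3_eval, eT_eval, eS2_eval, eC3_eval, fA_eval,
    fB_eval, eval_add, eval_mul, eval_pow, eval_c]
  push_cast
  ring

theorem chkhi_near : check 2 cGaphi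
    [⟨0, 1, 1⟩, ⟨0, 987, 10000⟩] .leaf = true := by
  decide +kernel

theorem chkhi_far : check 2 (eGaphi fA fB)
    [⟨0, 987, 10000⟩, ⟨987, 3571, 10000⟩] .leaf = true := by
  decide +kernel

end Vale.Agent.P154.NegMid
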