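import Vale.Agent.P154.NegMid.EnvBase

/-!
P154 NegMid: certified envelope Lo (generated).
-/

namespace Vale.Agent.P154.NegMid

open PolyCheck

/-- Scaled gap of envelope lo. -/
noncomputable def gaplo (a b : ℝ) : ℝ :=
  (810000) * base3 a b * TT a b ^ 1
    + (110160) * (S2 a b ^ 2 * C3 a b ^ 0 * TT a b ^ 0)

/-- The gap as an expression. -/
def eGaplo (A B : Ex) : Ex :=
  Ex.c (810000) * eBase3 A B * eT A B ^ 1
    + Ex.c (110160) * (eS2 A B ^ 2 * eC3 A B ^ 0 * eT A B ^ 0)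

/-- The gap over `y ^ 4` in the chart. -/
def cGaplo : Ex :=
  Ex.c (810000) * q3 * eT hA fB ^ 1
    + Ex.c (110160) * (qS ^ 2 * qC ^ 0 * eT hA fB ^ 0) * Ex.v 1 ^ 0

lemma cGaplo_spec (t y : ℝ) : gaplo (1 - t * y) (1 - y) = y ^ 4 * cGaplo.eval (pt [t, y]) := by
  simp only [gaplo, q3_spec, qS_spec, qC_spec, cGaplo, eval_add, eval_mul, eval_pow, eval_c]
  simp only [TT, eT, hA, fB, eval_add, eval_sub, eval_mul, eval_pow, eval_c, eval_v, pt_zero, pt_one]
  push_cast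
  ring

lemma eGaplo_spec (x y : ℝ) : gaplo (1 - x) (1 - y) = (eGaplo fA fB).eval (pt [x, y]) := by
  simp only [gaplo, eGaplo, eBase3_eval, eT_eval, eS2_eval, eC3_eval, fA_eval,
    fB_eval, eval_add, eval_mul, eval_pow, eval_c]
  push_cast
  ring

theorem chklo_near : check 2 cGaplo
    [⟨0, 1, 1⟩, ⟨0, 987, 10000⟩] .leaf = true := by
  decide +kernel

theorem chklo_far : check 2 (eGaplo fA fB)
    [⟨0, 987, 10000⟩, ⟨987, 3571, 10000⟩] .leaf = true := by
  decide +kernel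

end Vale.Agent.P154.NegMid
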