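import Vale.Agent.P154.NegMid.Param
import Vale.Agent.P154.NegMid.ClosingDefs
import Vale.Agent.P154.NegMid.EnvF
import Vale.Agent.P154.NegMid.EnvV
import Vale.Agent.P154.NegMid.EnvD1
import Vale.Agent.P154.NegMid.EnvD2
import Vale.Agent.P154.NegMid.EnvG
import Vale.Agent.P154.NegMid.EnvLo
import Vale.Agent.P154.NegMid.EnvHi

/-!
P154 NegMid: envelopes of the three atoms in `S` and `C`.
-/

namespace Vale.Agent.P154.NegMid

open PolyCheck

/-- Both chart and far box. -/
lemma gap_nonneg (g : ℝ → ℝ → ℝ) (c f : Ex)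
    (hc : ∀ t y, g (1 - t * y) (1 - y) = y ^ 4 * c.eval (pt [t, y]))
    (hf : ∀ x y, g (1 - x) (1 - y) = f.eval (pt [x, y])) {T1 T2 : Cut}
    (h1 : check 2 c [⟨0, 1, 1⟩, ⟨0, 987, 10000⟩] T1 = true)
    (h2 : check 2 f [⟨0, 987, 10000⟩, ⟨987, 3571, 10000⟩] T2 = true) {a b : ℝ} (hba : b ≤ a)
    (ha : a ≤ 1) (ha' : 9013 / 10000 ≤ a) (hb : 6429 / 10000 ≤ b) : 0 ≤ g a b := by
  rcases le_total (1 - b) (987 / 10000) with hy | hy
  · obtain ⟨t, ht, ht1, htx⟩ : ∃ t, 0 ≤ t ∧ t ≤ 1 ∧ t * (1 - b) = 1 - a := by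
      rcases (show 0 ≤ 1 - b by linarith).eq_or_lt with h | h
      · exact ⟨0, le_rfl, zero_le_one, by linarith⟩
      · exact ⟨(1 - a) / (1 - b), div_nonneg (by linarith) h.le,
          (div_le_one h).2 (by linarith), div_mul_cancel₀ _ h.ne'⟩
    have e := hc t (1 - b)
    rw [htx, sub_sub_cancel, sub_sub_cancel] at e
    rw [e]
    refine mul_nonneg (pow_nonneg (by linarith) 4) (nonneg₂ c _ _ T1 h1 ?_ ?_)
    · constructor <;> norm_num <;> linarith
    · constructor <;> norm_num <;> linarith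
  · have e := hf (1 - a) (1 - b)
    rw [sub_sub_cancel, sub_sub_cancel] at e
    rw [e]
    refine nonneg₂ f _ _ T2 h2 ?_ ?_ <;> constructor <;> norm_num <;> linarith

variable {u : Fin 3 → ℝ} {a b : ℝ}

theorem envF_le (h : IsParam u a b) :
    55 / 6 * Neg3.S u + envF (Neg3.S u) (Neg3.C u) ≤
      -245 * tanVert (atom 0) u + 346 * tanVert (atom 1) u - 84 * tanVert (atom 2) u := by
  have hg : 0 ≤ gapF a b := by
    obtain ⟨t, ht, ht1, htx⟩ : ∃ t, 0 ≤ t ∧ t ≤ 1 ∧ t * (1 - b) = 1 - a := by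
      have := h.hba
      have := h.ha
      rcases (show 0 ≤ 1 - b by linarith).eq_or_lt with h' | h'
      · exact ⟨0, le_rfl, zero_le_one, by linarith⟩
      · exact ⟨(1 - a) / (1 - b), div_nonneg (by linarith) h'.le,
          (div_le_one h').2 (by linarith), div_mul_cancel₀ _ h'.ne'⟩
    have e := cGapF_spec t (1 - b)
    rw [htx, sub_sub_cancel, sub_sub_cancel] at e
    rw [e]
    have := h.hba
    have := h.ha
    have := h.hb
    refine mul_nonneg (pow_nonneg (by linarith) 4) (nonneg₂ cGapF _ _ _ chkF_near ?_ ?_)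
    · constructor <;> norm_num <;> linarith
    · constructor <;> norm_num <;> linarith
  have hT := TT_pos a b
  have e : gapF a b = 116640000 * TT a b ^ 8 *
      ((-245 * tanVert (atom 0) u + 346 * tanVert (atom 1) u - 84 * tanVert (atom 2) u) - (55 / 6 * Neg3.S u + envF (Neg3.S u) (Neg3.C u))) := by
    rw [h.hS, h.h0, h.h1, h.h2, h.hC, gapF, baseV, envF]
    field_simp
    ring
  rw [e] at hg
  have := nonneg_of_mul_nonneg_right hg (by positivity)
  linarith

theorem le_envV (h : IsParam u a b) (ha : 9013 / 10000 ≤ a) (hb : 6429 / 10000 ≤ b) :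
    -245 * tanVert (atom 0) u + 346 * tanVert (atom 1) u - 84 * tanVert (atom 2) u ≤
      55 / 6 * Neg3.S u + envV (Neg3.S u) (Neg3.C u) := by
  have hg : 0 ≤ gapV a b := by
    exact gap_nonneg gapV cGapV _ cGapV_spec eGapV_spec chkV_near chkV_far h.hba h.ha ha hb
  have hT := TT_pos a b
  have e : gapV a b = 116640000 * TT a b ^ 6 *
      (55 / 6 * Neg3.S u + envV (Neg3.S u) (Neg3.C u) - (-245 * tanVert (atom 0) u + 346 * tanVert (atom 1) u - 84 * tanVert (atom 2) u)) := by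
    rw [h.hS, h.h0, h.h1, h.h2, h.hC, gapV, baseV, envV]
    field_simp
    ring
  rw [e] at hg
  have := nonneg_of_mul_nonneg_right hg (by positivity)
  linarith

theorem envD1_le (h : IsParam u a b) (ha : 9013 / 10000 ≤ a) (hb : 6429 / 10000 ≤ b) :
    envD1 (Neg3.S u) (Neg3.C u) ≤
      tanVert (atom 1) u - 11 / 12 * tanVert (atom 0) u := by
  have hg : 0 ≤ gapd1 a b := by
    exact gap_nonneg gapd1 cGapd1 _ cGapd1_spec eGapd1_spec chkd1_near chkd1_far h.hba h.ha ha hb
  have hT := TT_pos a b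
  have e : gapd1 a b = 116640000 * TT a b ^ 7 *
      (tanVert (atom 1) u - 11 / 12 * tanVert (atom 0) u - envD1 (Neg3.S u) (Neg3.C u)) := by
    rw [h.hS, h.h0, h.h1, h.hC, gapd1, base1, envD1]
    field_simp
    ring
  rw [e] at hg
  have := nonneg_of_mul_nonneg_right hg (by positivity)
  linarith

theorem le_envD2 (h : IsParam u a b) (ha : 9013 / 10000 ≤ a) (hb : 6429 / 10000 ≤ b) :
    tanVert (atom 2) u - 3 / 4 * tanVert (atom 0) u ≤
      envD2 (Neg3.S u) (Neg3.C u) := by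
  have hg : 0 ≤ gapd2 a b := by
    exact gap_nonneg gapd2 cGapd2 _ cGapd2_spec eGapd2_spec chkd2_near chkd2_far h.hba h.ha ha hb
  have hT := TT_pos a b
  have e : gapd2 a b = 116640000 * TT a b ^ 6 *
      (envD2 (Neg3.S u) (Neg3.C u) - (tanVert (atom 2) u - 3 / 4 * tanVert (atom 0) u)) := by
    rw [h.hS, h.h0, h.h2, h.hC, gapd2, base3, envD2]
    field_simp
    ring
  rw [e] at hg
  have := nonneg_of_mul_nonneg_right hg (by positivity)
  linarith

theorem le_envG (h : IsParam u a b) (ha : 9013 / 10000 ≤ a) (hb : 6429 / 10000 ≤ b) :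
    tanVert (atom 0) u ≤ Neg3.S u + envG (Neg3.S u) (Neg3.C u) := by
  have hg : 0 ≤ gapg a b := by
    exact gap_nonneg gapg cGapg _ cGapg_spec eGapg_spec chkg_near chkg_far h.hba h.ha ha hb
  have hT := TT_pos a b
  have e : gapg a b = 116640000 * TT a b ^ 6 *
      (Neg3.S u + envG (Neg3.S u) (Neg3.C u) - tanVert (atom 0) u) := by
    rw [h.hS, h.h0, h.hC, gapg, baseg, envG]
    field_simp
    ring
  rw [e] at hg
  have := nonneg_of_mul_nonneg_right hg (by positivity)
  linarith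

theorem lo_le (h : IsParam u a b) (ha : 9013 / 10000 ≤ a) (hb : 6429 / 10000 ≤ b) :
    Neg3.C u / 24 - 34 / 1000 * Neg3.S u ^ 2 ≤
      tanVert (atom 2) u - 3 / 4 * tanVert (atom 0) u := by
  have hg : 0 ≤ gaplo a b := by
    exact gap_nonneg gaplo cGaplo _ cGaplo_spec eGaplo_spec chklo_near chklo_far h.hba h.ha ha hb
  have hT := TT_pos a b
  have e : gaplo a b = 116640000 * TT a b ^ 4 *
      (tanVert (atom 2) u - 3 / 4 * tanVert (atom 0) u - (Neg3.C u / 24 - 34 / 1000 * Neg3.S u ^ 2)) := by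
    rw [h.hS, h.h0, h.h2, h.hC, gaplo, base3]
    field_simp
    ring
  rw [e] at hg
  have := nonneg_of_mul_nonneg_right hg (by positivity)
  linarith

theorem le_hi (h : IsParam u a b) (ha : 9013 / 10000 ≤ a) (hb : 6429 / 10000 ≤ b) :
    tanVert (atom 2) u - 3 / 4 * tanVert (atom 0) u ≤ Neg3.C u / 24 := by
  have hg : 0 ≤ gaphi a b := by
    exact gap_nonneg gaphi cGaphi _ cGaphi_spec eGaphi_spec chkhi_near chkhi_far h.hba h.ha ha hb
  have hT := TT_pos a b
  have e : gaphi a b = 116640000 * TT a b ^ 3 *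
      (Neg3.C u / 24 - (tanVert (atom 2) u - 3 / 4 * tanVert (atom 0) u)) := by
    rw [h.h0, h.h2, h.hC, gaphi, base3]
    field_simp
    ring
  rw [e] at hg
  have := nonneg_of_mul_nonneg_right hg (by positivity)
  linarith

end Vale.Agent.P154.NegMid
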