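import Vale.Agent.P154.NegMid.PointCert
import Vale.Agent.P154.Neg3.Assembly
import Vale.Agent.P154.Neg3.Bounds
import Vale.Agent.P154.Neg3.Final

/-!
P154 NegMid: the range `[-1/√5, 0)` for three states from the closing inequalities.
-/

namespace Vale.Agent.P154.NegMid

lemma hReg'_nonneg {d : ℕ} (hd : 2 ≤ d) {x : ℝ} (h0 : 0 ≤ x) (h2 : x ≤ 2) : 0 ≤ hReg' d x := by
  have hd' : (2 : ℝ) ≤ d := by exact_mod_cast hd
  have hx : x / d ≤ 1 := (div_le_one (by linarith)).2 (by linarith)
  rw [hReg', sub_nonneg]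
  exact pow_le_one₀ (by linarith) (by linarith [div_nonneg h0 (by linarith : (0 : ℝ) ≤ d)])

lemma pLo'_nonneg {x : ℝ} (h0 : 0 ≤ x) (h2 : x ≤ 2) : 0 ≤ pLo' x := by
  have e : pLo' x = x * (1 - x / 2) + x ^ 3 / 6 * (1 - x / 4) + x ^ 5 / 120 * (1 - x / 6) := by
    rw [pLo']; ring
  rw [e]
  have := mul_nonneg h0 (by linarith : (0 : ℝ) ≤ 1 - x / 2)
  have := mul_nonneg (by positivity : 0 ≤ x ^ 3 / 6) (by linarith : (0 : ℝ) ≤ 1 - x / 4)
  have := mul_nonneg (by positivity : 0 ≤ x ^ 5 / 120) (by linarith : (0 : ℝ) ≤ 1 - x / 6)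
  linarith

lemma pHi'_nonneg {x : ℝ} (h0 : 0 ≤ x) (h2 : x ≤ 2) : 0 ≤ pHi' x := by
  have := pLo'_nonneg h0 h2
  rw [pHi']; positivity

/-- Regular trees on the critical curve. -/
theorem regular_of_closing {d : ℕ} {lo hi : ℝ} (hd : 5 ≤ d) (hlo : lo ≤ 1 / √(d : ℝ))
    (hhi : 1 / √(d : ℝ) ≤ hi) (hhi' : hi ≤ 44722 / 100000) (hc : ClosingReg d lo hi) :
    NonReconstructs (aRegular 3 (-(1 / √(d : ℝ))) d) := by
  have hd5 : (5 : ℝ) ≤ d := by exact_mod_cast hd
  obtain ⟨l, hl⟩ : ∃ l, l = 1 / √(d : ℝ) := ⟨_, rfl⟩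
  rw [← hl] at hlo hhi ⊢
  have hl0 : 0 ≤ l := hl ▸ by positivity
  have hdl : (d : ℝ) * (-l) ^ 2 = 1 := by
    rw [neg_sq, hl, div_pow, one_pow, Real.sq_sqrt (by linarith), mul_one_div, div_self]
    linarith
  have hadm : -(1 / (((3 : ℕ) : ℝ) - 1)) ≤ -l := by norm_num; linarith
  have hκ : 0 ≤ 1 - 1 / (d : ℝ) := by
    rw [sub_nonneg, div_le_one (by linarith)]; linarith
  have hT := tanCert_of_closing (d := (d : ℝ)) (lam := -l)
    (L0 := fun m => hReg d (11 / 12 * m)) (L1 := fun m => hReg' d (11 / 12 * m))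
    (U00 := fun m => hReg d m) (U20 := fun m => hReg d (3 / 4 * m))
    (U21 := fun m => hReg' d (3 / 4 * m)) (by linarith) (by linarith) hdl hκ
    (fun m hm hm2 => hReg'_nonneg (by omega) (by linarith) (by linarith))
    (fun m hm hm2 => hReg'_nonneg (by omega) (by linarith) (by linarith))
    fun a C m ha ha1 hC hC1 hm hm2 => by
      rw [neg_neg]; exact hc a C l m ha ha1 hC hC1 hlo hhi hm hm2
  exact nonReconstructs_regular_of_affCert (by norm_num) _ hadm (by linarith) d
    (affCert_of_tanCert (by norm_num) _ hadm (by linarith) (by linarith) hκ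
      (tanBounds_regular (by omega)) hT)

/-- Poisson trees on the critical curve. -/
theorem poisson_of_closing (hc : ClosingPoi (3535 / 10000) (44722 / 100000)) (lam : ℝ)
    (h0 : -(44722 / 100000) ≤ lam) (h1 : lam ≤ -(3535 / 10000)) :
    NonReconstructs (aPoisson 3 lam (1 / lam ^ 2)) := by
  have hlam : 0 < lam ^ 2 := pow_two_pos_of_ne_zero (by linarith)
  have hadm : -(1 / (((3 : ℕ) : ℝ) - 1)) ≤ lam := by norm_num; linarith
  have hT := tanCert_of_closing (d := 1 / lam ^ 2) (lam := lam) (κ := 1)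
    (L0 := fun m => pLo (11 / 12 * m)) (L1 := fun m => pLo' (11 / 12 * m))
    (U00 := fun m => pHi m) (U20 := fun m => pHi (3 / 4 * m))
    (U21 := fun m => pHi' (3 / 4 * m)) h0 (by linarith) (one_div_mul_cancel hlam.ne') zero_le_one
    (fun m hm hm2 => pLo'_nonneg (by linarith) (by linarith))
    (fun m hm hm2 => pHi'_nonneg (by linarith) (by linarith))
    fun a C m ha ha1 hC hC1 hm hm2 => hc a C (-lam) m ha ha1 hC hC1 (by linarith) (by linarith) hm hm2
  have hd : 0 < 1 / lam ^ 2 := by positivity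
  exact nonReconstructs_poisson_of_affCert (by norm_num) _ hadm (by linarith) _ hd.le
    (affCert_of_tanCert (by norm_num) _ hadm (by linarith) hd zero_le_one
      (tanBounds_poisson hd) hT)

lemma sqrt_bracket {x lo hi : ℝ} (hx : 0 < x) (hlo : 0 < lo) (hhi : 0 < hi)
    (h1 : x * lo ^ 2 ≤ 1) (h2 : 1 ≤ x * hi ^ 2) : lo ≤ 1 / √x ∧ 1 / √x ≤ hi := by
  have hs := Real.sqrt_pos.2 hx
  have e : x = √x ^ 2 := (Real.sq_sqrt hx.le).symm
  constructor
  · rw [le_div_iff₀ hs]
    refine le_of_pow_le_pow_left₀ two_ne_zero zero_le_one ?_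
    rw [mul_pow, ← e]; linarith
  · rw [div_le_iff₀ hs]
    refine le_of_pow_le_pow_left₀ two_ne_zero (mul_nonneg hhi.le hs.le) ?_
    rw [mul_pow, ← e]; linarith

/-- Nonreconstruction at and below the threshold on `[-1/√5, 0)`. -/
theorem nonReconstructs_mid_of_closing
    (h5 : ClosingReg 5 (44721 / 100000) (44722 / 100000))
    (h6 : ClosingReg 6 (40824 / 100000) (40825 / 100000))
    (h7 : ClosingReg 7 (37796 / 100000) (37797 / 100000))
    (hP : ClosingPoi (3535 / 10000) (44722 / 100000)) (lam : ℝ)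
    (hl : -(1 / √5) ≤ lam) (h0 : lam < 0) :
    (∀ d : ℕ, (d : ℝ) * lam ^ 2 ≤ 1 → NonReconstructs (aRegular 3 lam d)) ∧
      ∀ d : ℝ, 0 ≤ d → d * lam ^ 2 ≤ 1 → NonReconstructs (aPoisson 3 lam d) := by
  have b5 := sqrt_bracket (x := 5) (lo := 44721 / 100000) (hi := 44722 / 100000) (by norm_num)
    (by norm_num) (by norm_num) (by norm_num) (by norm_num)
  have b6 := sqrt_bracket (x := 6) (lo := 40824 / 100000) (hi := 40825 / 100000) (by norm_num)
    (by norm_num) (by norm_num) (by norm_num) (by norm_num)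
  have b7 := sqrt_bracket (x := 7) (lo := 37796 / 100000) (hi := 37797 / 100000) (by norm_num)
    (by norm_num) (by norm_num) (by norm_num) (by norm_num)
  have b8 := sqrt_bracket (x := 8) (lo := 3535 / 10000) (hi := 3536 / 10000) (by norm_num)
    (by norm_num) (by norm_num) (by norm_num) (by norm_num)
  have neg3 := fun l => Neg3.nonReconstructs_of_bounds Neg3.boundU Neg3.boundV Neg3.boundFinal l
  have hadm : -(1 / (((3 : ℕ) : ℝ) - 1)) ≤ -(1 / √((5 : ℕ) : ℝ)) := by
    push_cast; norm_num at b5 ⊢; linarith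
  refine nonReconstructs_of_critical (by norm_num) 5 (by norm_num) hadm (fun l hl' hl0 => ?_)
    (fun d hd => ?_) lam (by push_cast; exact hl) h0
  · push_cast at hl'
    rcases le_total l (-(1 / √8)) with h | h
    · exact poisson_of_closing hP l (by linarith [b5.2]) (by linarith [b8.1])
    · exact (neg3 l h hl0).2 _ (by positivity)
        (one_div_mul_cancel (pow_ne_zero 2 hl0.ne)).le
  · rcases le_or_gt 8 d with h8 | h8
    · have h8' : (8 : ℝ) ≤ d := by exact_mod_cast h8
      refine (neg3 _ (neg_le_neg ?_) ?_).1 d ?_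
      · gcongr
      · have : 0 < 1 / √(d : ℝ) := by positivity
        linarith
      · rw [neg_sq, div_pow, one_pow, Real.sq_sqrt (by linarith), mul_one_div, div_self]
        linarith
    · interval_cases d
      · exact regular_of_closing le_rfl (by exact_mod_cast b5.1) (by exact_mod_cast b5.2) le_rfl h5
      · exact regular_of_closing (by norm_num) (by exact_mod_cast b6.1) (by exact_mod_cast b6.2)
          (by norm_num) h6
      · exact regular_of_closing (by norm_num) (by exact_mod_cast b7.1) (by exact_mod_cast b7.2)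
          (by norm_num) h7

end Vale.Agent.P154.NegMid
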