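import Vale.Agent.P154.AffAssembly
import Vale.Agent.P154.PointAssembly

/-!
P154: affinity certificates from tangent bounds around a reference atom.
-/

namespace Vale.Agent.P154

open Finset

/-- An atom at a vertex, averaged over the permutations. -/
noncomputable def tanVert {q : ℕ} (α : Fin q → ℝ) (u : Fin q → ℝ) : ℝ :=
  PointAssembly.pav (fun u => 1 - aff α u) u

/-- An atom after one edge, times `d`, averaged over the permutations. -/
noncomputable def tanEdge {q : ℕ} (lam d : ℝ) (α : Fin q → ℝ) (u : Fin q → ℝ) : ℝ :=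
  PointAssembly.pav (fun u => d * (1 - aff α fun i => lam * u i)) u

/-- Bounds of the second order remainder around the multiples `r m` of the reference value. -/
def TanBounds (G : ℝ → ℝ) (d κ A r1 r2 : ℝ) (L0 L1 U00 U01 U20 U21 : ℝ → ℝ) : Prop :=
  ∀ m, 0 ≤ m → m ≤ A → ∀ a, 0 ≤ a → a ≤ A → a ≤ d →
    L0 m + L1 m * (a - r1 * m) ≤ G (1 - a / d) - 1 + a ∧
    G (1 - a / d) - 1 + a ≤ U00 m + U01 m * (a - m) + κ / 2 * (a - m) ^ 2 ∧
    G (1 - a / d) - 1 + a ≤ U20 m + U21 m * (a - r2 * m) + κ / 2 * (a - r2 * m) ^ 2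

/-- Pointwise certificate with tangents: three atoms, the reference atom and the last one with
nonpositive coefficient. -/
def TanCert {q : ℕ} (lam d κ A ε : ℝ) (c : Fin 3 → ℝ) (r1 r2 : ℝ) (α : Fin 3 → Fin q → ℝ)
    (L0 L1 U00 U20 U21 μ : ℝ → ℝ) : Prop :=
  0 < ε ∧ c 0 ≤ 0 ∧ 0 ≤ c 1 ∧ c 2 ≤ 0 ∧ (∀ j i, 0 ≤ α j i) ∧ (∀ j, ∑ i, α j i = 1) ∧
    ∀ u, Dev u →
      (∀ j, tanEdge lam d (α j) u ≤ A) ∧
      ∀ m, 0 ≤ m → m ≤ A →
        ε * ss u ^ 2 ≤ ∑ j, c j * (tanVert (α j) u - tanEdge lam d (α j) u) +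
          (c 0 * U00 m + c 1 * L0 m + c 2 * U20 m) +
          c 1 * L1 m * (tanEdge lam d (α 1) u - r1 * tanEdge lam d (α 0) u) +
          c 2 * U21 m * (tanEdge lam d (α 2) u - r2 * tanEdge lam d (α 0) u) +
          c 2 * (κ / 2) * (tanEdge lam d (α 2) u - r2 * tanEdge lam d (α 0) u) ^ 2 +
          μ m * (tanEdge lam d (α 0) u - m)

open PointAssembly in
/-- A tangent certificate is an affinity certificate. -/
theorem affCert_of_tanCert {q : ℕ} (hq : 2 ≤ q) (lam : ℝ) (hl : -(1 / ((q : ℝ) - 1)) ≤ lam)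
    (hl' : lam ≤ 1) {G : ℝ → ℝ} {d κ A ε r1 r2 : ℝ} {c : Fin 3 → ℝ} {α : Fin 3 → Fin q → ℝ}
    {L0 L1 U00 U01 U20 U21 μ : ℝ → ℝ} (hd : 0 < d) (hκ : 0 ≤ κ)
    (hB : TanBounds G d κ A r1 r2 L0 L1 U00 U01 U20 U21)
    (hP : TanCert lam d κ A ε c r1 r2 α L0 L1 U00 U20 U21 μ) : AffCert q lam G := by
  obtain ⟨hε, hc0, hc1, hc2, hα0, hα1, hpt⟩ := hP
  refine ⟨3, α, fun x => ∑ j, c j * x j, ε, hε, by fun_prop, hα0, hα1, fun L => ?_⟩
  have hE : ∀ j, L.E (tanEdge lam d (α j)) = d * L.defectEdge (α j) lam := fun j => by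
    rw [show tanEdge lam d (α j) = pav fun u => d * (1 - aff (α j) fun i => lam * u i) from rfl,
      E_pav, Law.defectEdge, L.smul_fun, L.sub_fun, L.const]
  have hV : ∀ j, L.E (tanVert (α j)) = L.defect (α j) := fun j => by
    rw [show tanVert (α j) = pav fun u => 1 - aff (α j) u from rfl, E_pav, Law.defect, L.sub_fun,
      L.const]
  set e : Fin 3 → ℝ := fun j => L.E (tanEdge lam d (α j)) with he
  have h01 : ∀ j, 0 ≤ e j ∧ e j ≤ d := fun j => by
    simp only [he, hE, Law.defectEdge, Law.E_scale_aff hq lam hl hl']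
    have h0 := (L.scale hq lam hl hl').E_aff_nonneg (α j)
    have h1 := (L.scale hq lam hl hl').E_aff_le_one (hα0 j) (hα1 j)
    exact ⟨mul_nonneg hd.le (by linarith), mul_le_of_le_one_right hd.le (by linarith)⟩
  have hA : ∀ j, e j ≤ A := fun j =>
    le_of_le_of_eq (L.mono _ _ fun u hu => (hpt u hu).1 j) (L.const A)
  obtain ⟨m, hm⟩ : ∃ m, m = e 0 := ⟨_, rfl⟩
  have hm0 : 0 ≤ m := hm ▸ (h01 0).1
  have hmA : m ≤ A := hm ▸ hA 0
  have hb := fun j => hB m hm0 hmA (e j) (h01 j).1 (hA j) (h01 j).2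
  have h := L.mono _ _ fun u hu => (hpt u hu).2 m hm0 hmA
  simp only [Fin.sum_univ_three, L.add_fun, L.sub_fun, L.smul_fun, L.const, hV] at h
  have hsq := mul_le_mul_of_nonpos_left
    (E_sq L (fun u => tanEdge lam d (α 2) u - r2 * tanEdge lam d (α 0) u))
    (mul_nonpos_of_nonpos_of_nonneg hc2 (by linarith : (0:ℝ) ≤ κ / 2))
  simp only [L.sub_fun, L.smul_fun] at hsq
  have hS := mul_le_mul_of_nonneg_left (E_sq L ss) hε.le
  have b0 := mul_le_mul_of_nonpos_left (hb 0).2.1 hc0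
  have b1 := mul_le_mul_of_nonneg_left (hb 1).1 hc1
  have b2 := mul_le_mul_of_nonpos_left (hb 2).2.2 hc2
  simp only [← hm, sub_self, mul_zero, zero_pow two_ne_zero, add_zero] at b0
  have hG1 : ∀ j, 1 - G (1 - L.defectEdge (α j) lam) = e j - (G (1 - e j / d) - 1 + e j) :=
    fun j => by simp only [he, hE, mul_div_cancel_left₀ _ hd.ne']; ring
  simp only [Fin.sum_univ_three, hG1, Law.S] at hS ⊢
  simp only [he] at hm b0 b1 b2 ⊢
  simp only [← hm] at h hsq b1 b2 ⊢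
  linarith

end Vale.Agent.P154
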