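import Vale.Agent.P154.NegMid.Defs
import Vale.Agent.P154.NegMid.EnvBase
import Vale.Agent.P154.NegMid.TanAssembly
import Vale.Agent.P154.Neg3.Basic

/-!
P154 NegMid: a deviation in the sixth roots `a, b` of the two smaller components of `1 + u` over
the largest one.
-/

namespace Vale.Agent.P154.NegMid

open Finset

/-- Sum over the permutations of three letters. -/
lemma pav3 (g : ℝ → ℝ → ℝ → ℝ) (u : Fin 3 → ℝ) :
    PointAssembly.pav (fun w => g (w 0) (w 1) (w 2)) u =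
      (g (u 0) (u 1) (u 2) + g (u 1) (u 2) (u 0) + g (u 2) (u 0) (u 1) + g (u 0) (u 2) (u 1) +
        g (u 2) (u 1) (u 0) + g (u 1) (u 0) (u 2)) / 6 := by
  have h : (Finset.univ : Finset (Equiv.Perm (Fin 3))) =
      {1, finRotate 3, (finRotate 3)⁻¹, Equiv.swap 1 2, Equiv.swap 0 2, Equiv.swap 0 1} := by
    decide
  have hc : Fintype.card (Equiv.Perm (Fin 3)) = 6 := by decide
  rw [PointAssembly.pav, hc, h, Finset.sum_insert (by decide), Finset.sum_insert (by decide),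
    Finset.sum_insert (by decide), Finset.sum_insert (by decide), Finset.sum_insert (by decide),
    Finset.sum_singleton]
  have h2 : (finRotate 3 0 = 1) ∧ (finRotate 3 1 = 2) ∧ (finRotate 3 2 = 0) := by decide
  have h3 : ((finRotate 3)⁻¹ 0 = 2) ∧ ((finRotate 3)⁻¹ 1 = 0) ∧ ((finRotate 3)⁻¹ 2 = 1) := by
    decide
  have h4 : (Equiv.swap (1 : Fin 3) 2 0 = 0) ∧ (Equiv.swap (1 : Fin 3) 2 1 = 2) ∧
      (Equiv.swap (1 : Fin 3) 2 2 = 1) := by decide
  have h5 : (Equiv.swap (0 : Fin 3) 2 0 = 2) ∧ (Equiv.swap (0 : Fin 3) 2 1 = 1) ∧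
      (Equiv.swap (0 : Fin 3) 2 2 = 0) := by decide
  have h6 : (Equiv.swap (0 : Fin 3) 1 0 = 1) ∧ (Equiv.swap (0 : Fin 3) 1 1 = 0) ∧
      (Equiv.swap (0 : Fin 3) 1 2 = 2) := by decide
  simp only [Function.comp_apply, Equiv.Perm.one_apply, h2, h3, h4, h5, h6]
  push_cast
  ring

lemma pav_comp {q : ℕ} (g : (Fin q → ℝ) → ℝ) (u : Fin q → ℝ) (σ : Equiv.Perm (Fin q)) :
    PointAssembly.pav g (u ∘ σ) = PointAssembly.pav g u := by
  unfold PointAssembly.pav
  congr 1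
  exact Equiv.sum_comp (Equiv.mulLeft σ) fun τ : Equiv.Perm (Fin q) => g (u ∘ τ)

lemma ss_eq (u : Fin 3 → ℝ) : ss u = Neg3.S u := by
  rw [ss, Neg3.S, Fin.sum_univ_three]
  norm_num

lemma S_comp (u : Fin 3 → ℝ) (σ : Equiv.Perm (Fin 3)) : Neg3.S (u ∘ σ) = Neg3.S u := by
  have h := Equiv.sum_comp σ fun i => u i ^ 2
  simp only [Fin.sum_univ_three] at h
  simp only [Neg3.S, Function.comp_apply, h]

lemma C_comp (u : Fin 3 → ℝ) (σ : Equiv.Perm (Fin 3)) : Neg3.C (u ∘ σ) = Neg3.C u := by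
  have h := Equiv.sum_comp σ fun i => u i ^ 3
  simp only [Fin.sum_univ_three] at h
  simp only [Neg3.C, Function.comp_apply, h]

lemma dev_comp {u : Fin 3 → ℝ} (hu : Dev u) (σ : Equiv.Perm (Fin 3)) : Dev (u ∘ σ) :=
  ⟨(Equiv.sum_comp σ u).trans hu.1, fun i => hu.2 (σ i)⟩

/-- The value at a sorted deviation. -/
structure IsParam (u : Fin 3 → ℝ) (a b : ℝ) : Prop where
  hb : 0 ≤ b
  hba : b ≤ a
  ha : a ≤ 1
  hS : Neg3.S u = S2 a b / (6 * TT a b ^ 2)
  hC : Neg3.C u = C3 a b / (6 * TT a b ^ 3)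
  h0 : tanVert (atom 0) u = tn0 a b / TT a b
  h1 : tanVert (atom 1) u = tn1 a b / TT a b
  h2 : tanVert (atom 2) u = tn2 a b / TT a b

lemma TT_pos (a b : ℝ) : 0 < TT a b := by
  unfold TT; nlinarith [pow_two_nonneg (a ^ 3), pow_two_nonneg (b ^ 3)]

lemma param_sorted {u : Fin 3 → ℝ} (hu : Dev u) (h10 : u 1 ≤ u 0) (h21 : u 2 ≤ u 1) :
    ∃ a b, IsParam u a b ∧ a ^ 6 * (1 + u 0) = 1 + u 1 ∧ b ^ 6 * (1 + u 0) = 1 + u 2 := by
  have h3 : u 0 + u 1 + u 2 = 0 := by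
    have := hu.1; rwa [Fin.sum_univ_three] at this
  have hn : ∀ i, 0 ≤ 1 + u i := fun i => by linarith [hu.2 i]
  obtain ⟨x, hx⟩ : ∃ x : Fin 3 → ℝ, x = fun i => (1 + u i) ^ (1 / 6 : ℝ) := ⟨_, rfl⟩
  have x0 : ∀ i, 0 ≤ x i := fun i => hx ▸ Real.rpow_nonneg (hn i) _
  have hp : ∀ (i : Fin 3) (e : ℝ) (k : ℕ), e = k / 6 → (1 + u i) ^ e = x i ^ k := by
    intro i e k he
    rw [hx, ← Real.rpow_natCast, ← Real.rpow_mul (hn i), he]
    congr 1
    ring
  have h6 : ∀ i, x i ^ 6 = 1 + u i := fun i => by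
    rw [← hp i 1 6 (by norm_num), Real.rpow_one]
  have hpos : 0 < x 0 := by
    rcases (x0 0).eq_or_lt with h | h
    · exfalso
      have := h6 0
      rw [← h] at this
      norm_num at this
      linarith
    · exact h
  obtain ⟨a, ha⟩ : ∃ a, a = x 1 / x 0 := ⟨_, rfl⟩
  obtain ⟨b, hb⟩ : ∃ b, b = x 2 / x 0 := ⟨_, rfl⟩
  have e1 : x 1 = a * x 0 := by rw [ha, div_mul_cancel₀ _ hpos.ne']
  have e2 : x 2 = b * x 0 := by rw [hb, div_mul_cancel₀ _ hpos.ne']
  have eT : TT a b * x 0 ^ 6 = 3 := by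
    have : x 0 ^ 6 + x 1 ^ 6 + x 2 ^ 6 = 3 := by rw [h6, h6, h6]; linarith
    rw [e1, e2] at this
    unfold TT
    linear_combination this
  have hT := TT_pos a b
  have hX : x 0 ^ 6 = 3 / TT a b := by
    rw [eq_div_iff hT.ne']; linarith
  have hu0 : u 0 = 3 / TT a b - 1 := by rw [← hX, h6]; ring
  have hu1 : u 1 = a ^ 6 * (3 / TT a b) - 1 := by
    rw [← hX, ← mul_pow, ← e1, h6]; ring
  have hu2 : u 2 = b ^ 6 * (3 / TT a b) - 1 := by
    rw [← hX, ← mul_pow, ← e2, h6]; ring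
  have hb0 : 0 ≤ b := hb ▸ div_nonneg (x0 2) hpos.le
  have x21 : x 2 ≤ x 1 := by
    rw [hx]; exact Real.rpow_le_rpow (hn 2) (by linarith) (by norm_num)
  have x10 : x 1 ≤ x 0 := by
    rw [hx]; exact Real.rpow_le_rpow (hn 1) (by linarith) (by norm_num)
  refine ⟨a, b, ⟨hb0, ?_, ?_, ?_, ?_, ?_, ?_, ?_⟩, ?_, ?_⟩
  · rw [ha, hb]; exact div_le_div_of_nonneg_right x21 hpos.le
  · rw [ha, div_le_one hpos]; exact x10
  · rw [Neg3.S, hu0, hu1, hu2, S2]; field_simp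
  · rw [Neg3.C, hu0, hu1, hu2, C3]; field_simp
  · unfold tanVert
    simp only [aff, Fin.prod_univ_three]
    rw [pav3 fun p q r => 1 - (1 + p) ^ atom 0 0 * (1 + q) ^ atom 0 1 * (1 + r) ^ atom 0 2]
    simp only [atom, Matrix.cons_val_zero, Matrix.cons_val_one, Matrix.cons_val,
      hp _ (1 / 3) 2 (by norm_num), e1, e2]
    rw [tn0]
    field_simp
    linear_combination (-(6 * a ^ 2 * b ^ 2)) * eT
  · unfold tanVert
    simp only [aff, Fin.prod_univ_three]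
    rw [pav3 fun p q r => 1 - (1 + p) ^ atom 1 0 * (1 + q) ^ atom 1 1 * (1 + r) ^ atom 1 2]
    simp only [atom, Matrix.cons_val_zero, Matrix.cons_val_one, Matrix.cons_val,
      hp _ (1 / 3) 2 (by norm_num), hp _ (1 / 2) 3 (by norm_num), hp _ (1 / 6) 1 (by norm_num),
      e1, e2]
    rw [tn1]
    field_simp
    linear_combination (-2 * (a ^ 2 * b + a * b ^ 2 + a ^ 3 * b + a * b ^ 3 + a ^ 3 * b ^ 2 +
      a ^ 2 * b ^ 3)) * eT
  · unfold tanVert
    simp only [aff, Fin.prod_univ_three]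
    rw [pav3 fun p q r => 1 - (1 + p) ^ atom 2 0 * (1 + q) ^ atom 2 1 * (1 + r) ^ atom 2 2]
    simp only [atom, Matrix.cons_val_zero, Matrix.cons_val_one, Matrix.cons_val,
      hp _ (2 / 3) 4 (by norm_num), hp _ (1 / 6) 1 (by norm_num), e1, e2]
    rw [tn2]
    field_simp
    linear_combination (-(2 * (a * b + a ^ 4 * b + a * b ^ 4))) * eT
  · rw [← h6 0, ← mul_pow, ← e1, h6]
  · rw [← h6 0, ← mul_pow, ← e2, h6]

/-- Every deviation has parameters. -/
theorem exists_param {u : Fin 3 → ℝ} (hu : Dev u) :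
    ∃ (σ : Equiv.Perm (Fin 3)) (a b : ℝ), IsParam u a b ∧
      a ^ 6 * (1 + u (σ 0)) = 1 + u (σ 1) ∧ b ^ 6 * (1 + u (σ 0)) = 1 + u (σ 2) ∧
      u (σ 2) ≤ u (σ 1) ∧ u (σ 1) ≤ u (σ 0) := by
  set σ := Tuple.sort fun i => -u i with hσ
  have hm := Tuple.monotone_sort fun i => -u i
  have h10 : u (σ 1) ≤ u (σ 0) := by
    have := hm (show (0 : Fin 3) ≤ 1 by decide)
    simp only [Function.comp_apply] at this
    linarith
  have h21 : u (σ 2) ≤ u (σ 1) := by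
    have := hm (show (1 : Fin 3) ≤ 2 by decide)
    simp only [Function.comp_apply] at this
    linarith
  obtain ⟨a, b, hp, e1, e2⟩ := param_sorted (dev_comp hu σ) h10 h21
  refine ⟨σ, a, b, ⟨hp.hb, hp.hba, hp.ha, S_comp u σ ▸ hp.hS, C_comp u σ ▸ hp.hC, ?_, ?_, ?_⟩,
    e1, e2, h21, h10⟩
  · exact (pav_comp _ u σ).symm.trans hp.h0
  · exact (pav_comp _ u σ).symm.trans hp.h1
  · exact (pav_comp _ u σ).symm.trans hp.h2

/-- A deviation which has passed one edge is far from the boundary. -/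
theorem exists_param_edge {u : Fin 3 → ℝ} (hu : Dev u) {lam : ℝ}
    (hl : -(44722 / 100000) ≤ lam) (hl0 : lam ≤ 0) :
    ∃ a b, IsParam (fun i => lam * u i) a b ∧ 9013 / 10000 ≤ a ∧ 6429 / 10000 ≤ b := by
  have hv : Dev fun i => lam * u i :=
    hu.scale (q := 3) (by norm_num) (by norm_num; linarith) (by linarith)
  obtain ⟨σ, a, b, hp, e1, e2, o21, o10⟩ := exists_param hv
  have hup : ∀ i, lam * u i ≤ (44722 / 100000 : ℝ) := fun i => by nlinarith [hu.2 i]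
  have hlo : ∀ i, -(2 * (44722 / 100000)) ≤ lam * u i := fun i => by
    have : u i ≤ 2 := by
      have := hu.le_sub i
      norm_num at this
      linarith
    nlinarith
  have hs := (Equiv.sum_comp σ fun i => lam * u i).trans hv.1
  rw [Fin.sum_univ_three] at hs
  have hp0 : 0 < 1 + lam * u (σ 0) := by linarith
  have w1 : 1 - (44722 / 100000) / 2 ≤ 1 + lam * u (σ 1) := by
    have h := hup (σ 0)
    linarith only [h, hs, o21]
  refine ⟨a, b, hp, le_of_pow_le_pow_left₀ (n := 6) (by norm_num) (hp.hb.trans hp.hba) ?_,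
    le_of_pow_le_pow_left₀ (n := 6) (by norm_num) hp.hb ?_⟩
  · by_contra h
    have h := mul_lt_mul_of_pos_right (lt_of_not_ge h) hp0
    rw [e1] at h
    have := mul_le_mul_of_nonneg_left (hup (σ 0)) (by norm_num : (0 : ℝ) ≤ (9013 / 10000) ^ 6)
    norm_num at h this w1
    linarith
  · by_contra h
    have h := mul_lt_mul_of_pos_right (lt_of_not_ge h) hp0
    rw [e2] at h
    have := mul_le_mul_of_nonneg_left (hup (σ 0)) (by norm_num : (0 : ℝ) ≤ (6429 / 10000) ^ 6)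
    have := hlo (σ 2)
    norm_num at h this w1 ⊢
    linarith

end Vale.Agent.P154.NegMid
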