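import Vale.Agent.P154.NegMid.Envelopes
import Vale.Agent.P154.NegMid.Bounds

/-!
P154 NegMid: the pointwise tangent certificate from the closing inequality.
-/

namespace Vale.Agent.P154.NegMid

open Finset

lemma pav_smul {q : ℕ} (d : ℝ) (g : (Fin q → ℝ) → ℝ) (u : Fin q → ℝ) :
    PointAssembly.pav (fun w => d * g w) u = d * PointAssembly.pav g u := by
  simp only [PointAssembly.pav, ← mul_sum, mul_div_assoc]

lemma tanEdge_eq {q : ℕ} (lam d : ℝ) (α u : Fin q → ℝ) :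
    tanEdge lam d α u = d * tanVert α fun i => lam * u i := by
  rw [tanEdge, pav_smul]
  rfl

lemma S_smul (lam : ℝ) (u : Fin 3 → ℝ) : Neg3.S (fun i => lam * u i) = lam ^ 2 * Neg3.S u := by
  simp only [Neg3.S]; ring

lemma C_smul (lam : ℝ) (u : Fin 3 → ℝ) : Neg3.C (fun i => lam * u i) = lam ^ 3 * Neg3.C u := by
  simp only [Neg3.C]; ring

/-- The range of `S` and `C`. -/
lemma SC_range {u : Fin 3 → ℝ} (hu : Dev u) :
    0 ≤ Neg3.S u ∧ Neg3.S u ≤ 1 ∧ Neg3.C u ^ 2 ≤ Neg3.S u ^ 3 ∧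
      (3 * Neg3.S u - 1) / 2 ≤ Neg3.C u := by
  have h3 : u 0 + u 1 + u 2 = 0 := by
    have := hu.1; rwa [Fin.sum_univ_three] at this
  have hn : ∀ i, 0 ≤ 1 + u i := fun i => by linarith [hu.2 i]
  refine ⟨by unfold Neg3.S; positivity, ?_, ?_, ?_⟩
  · unfold Neg3.S
    nlinarith [mul_nonneg (hn 0) (hn 1), mul_nonneg (hn 0) (hn 2), mul_nonneg (hn 1) (hn 2)]
  · have e : u 2 = -u 0 - u 1 := by linarith
    rw [Neg3.C, Neg3.S, e]
    nlinarith [sq_nonneg ((u 0 - u 1) * (2 * u 0 + u 1) * (u 0 + 2 * u 1))]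
  · have h := mul_nonneg (mul_nonneg (hn 0) (hn 1)) (hn 2)
    have e : u 2 = -u 0 - u 1 := by linarith
    rw [Neg3.C, Neg3.S, e]
    rw [e] at h
    nlinarith [h]

lemma amgm1 {a b : ℝ} (hb : 0 ≤ b) (hba : b ≤ a) (ha : a ≤ 1) :
    6 * (a ^ 2 * b ^ 2) ≤
      a ^ 2 * b + a * b ^ 2 + a ^ 3 * b + a * b ^ 3 + a ^ 3 * b ^ 2 + a ^ 2 * b ^ 3 := by
  have h0 : 0 ≤ a * b := mul_nonneg (hb.trans hba) hb
  have h : 6 * (a * b) ≤ a + b + (a ^ 2 + b ^ 2) + a * b * (a + b) := by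
    nlinarith [sq_nonneg (a - b), mul_nonneg h0 (sub_nonneg.2 ha),
      mul_nonneg h0 (sub_nonneg.2 (hba.trans ha)),
      mul_le_mul_of_nonneg_left ha hb, mul_le_mul_of_nonneg_left (hba.trans ha) (hb.trans hba),
      mul_nonneg (mul_nonneg (sub_nonneg.2 ha) (sub_nonneg.2 (hba.trans ha))) (add_nonneg hb hb)]
  nlinarith [mul_le_mul_of_nonneg_left h h0]

lemma amgm2 {a b : ℝ} (hb : 0 ≤ b) (hba : b ≤ a) :
    3 * (a ^ 2 * b ^ 2) ≤ a * b + a ^ 4 * b + a * b ^ 4 := by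
  have h0 : 0 ≤ a * b := mul_nonneg (hb.trans hba) hb
  have hs : 0 ≤ 1 + a + b := by linarith
  have e : a ^ 3 + b ^ 3 + 1 - 3 * (a * b) =
      (1 + a + b) * ((a - b) ^ 2 + (a - 1) ^ 2 + (b - 1) ^ 2) / 2 := by ring
  have h : 3 * (a * b) ≤ a ^ 3 + b ^ 3 + 1 := by
    have : 0 ≤ (1 + a + b) * ((a - b) ^ 2 + (a - 1) ^ 2 + (b - 1) ^ 2) / 2 := by positivity
    linarith
  nlinarith [mul_le_mul_of_nonneg_left h h0]

/-- Square of a number between two bounds. -/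
lemma sq_bound {C S δ : ℝ} (h1 : C / 24 - 34 / 1000 * S ^ 2 ≤ δ) (h2 : δ ≤ C / 24) :
    δ ^ 2 ≤ 21 / 10000 * C ^ 2 + 54621 / 8187500 * S ^ 4 := by
  rcases le_total 0 δ with h | h
  · nlinarith [mul_le_mul h2 h2 h (h.trans h2), sq_nonneg (S ^ 2)]
  · have h' := mul_le_mul_of_nonpos_left h1 h
    have h'' := mul_le_mul_of_nonpos_right h1 (h1.trans h)
    nlinarith [sq_nonneg (131 * C + 510 * S ^ 2)]

/-- The pointwise certificate from the closing inequality. -/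
theorem tanCert_of_closing {lam d κ : ℝ} {L0 L1 U00 U20 U21 : ℝ → ℝ}
    (hl : -(44722 / 100000) ≤ lam) (hl0 : lam ≤ 0) (hdl : d * lam ^ 2 = 1) (hκ : 0 ≤ κ)
    (h1 : ∀ m, 0 ≤ m → m ≤ 2 → 0 ≤ L1 m) (h2 : ∀ m, 0 ≤ m → m ≤ 2 → 0 ≤ U21 m)
    (hcl : ∀ a C m : ℝ, 0 ≤ a → a ≤ 1 → |C| ≤ a ^ 3 → (3 * a ^ 2 - 1) / 2 ≤ C → 0 ≤ m → m ≤ 2 →
      0 ≤ closing κ L0 L1 U00 U20 U21 a C (-lam) m) :
    TanCert lam d κ 2 (1 / 100) coef (11 / 12) (3 / 4) atom L0 L1 U00 U20 U21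
      fun m => -(91 / 100) * m := by
  refine ⟨by norm_num, by simp [coef], by simp [coef], by simp [coef],
    fun j i => by fin_cases j <;> fin_cases i <;> norm_num [atom],
    fun j => by fin_cases j <;> simp [atom, Fin.sum_univ_three] <;> norm_num, fun u hu => ?_⟩
  obtain ⟨σ, a, b, hp, -⟩ := exists_param hu
  obtain ⟨a', b', hv, ha', hb'⟩ := exists_param_edge hu hl hl0
  obtain ⟨hS0, hS1, hCS, hC1⟩ := SC_range hu
  have hd : 0 < d := by
    rcases lt_trichotomy d 0 with h | h | h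
    · nlinarith [sq_nonneg lam]
    · rw [h] at hdl; norm_num at hdl
    · exact h
  obtain ⟨S, hS⟩ : ∃ S, S = Neg3.S u := ⟨_, rfl⟩
  obtain ⟨C, hC⟩ : ∃ C, C = Neg3.C u := ⟨_, rfl⟩
  obtain ⟨l, hll⟩ : ∃ l, l = -lam := ⟨_, rfl⟩
  have hSv : Neg3.S (fun i => lam * u i) = l ^ 2 * S := by rw [S_smul, hS, hll]; ring
  have hCv : Neg3.C (fun i => lam * u i) = -(l ^ 3 * C) := by rw [C_smul, hC, hll]; ring
  have hdl' : d * l ^ 2 = 1 := by rw [hll, neg_sq]; exact hdl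
  have eF := envF_le hp
  have eV := mul_le_mul_of_nonneg_left (le_envV hv ha' hb') hd.le
  have eD1 := mul_le_mul_of_nonneg_left (envD1_le hv ha' hb') hd.le
  have eD2 := mul_le_mul_of_nonneg_left (le_envD2 hv ha' hb') hd.le
  have eG := mul_le_mul_of_nonneg_left (le_envG hv ha' hb') hd.le
  have eQ := mul_le_mul_of_nonneg_left (sq_bound (lo_le hv ha' hb') (le_hi hv ha' hb'))
    (sq_nonneg d)
  rw [← hS, ← hC] at eF hCS hC1
  rw [← hS] at hS0 hS1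
  rw [hSv, hCv] at eV eD1 eD2 eG eQ
  have sV : d * (55 / 6 * (l ^ 2 * S) + envV (l ^ 2 * S) (-(l ^ 3 * C))) =
      55 / 6 * S + edV S C l := by
    rw [show envV (l ^ 2 * S) (-(l ^ 3 * C)) = l ^ 2 * edV S C l by
      simp only [envV, edV]; ring]
    linear_combination (55 / 6 * S + edV S C l) * hdl'
  have sD1 : d * envD1 (l ^ 2 * S) (-(l ^ 3 * C)) = edD1 S C l := by
    rw [show envD1 (l ^ 2 * S) (-(l ^ 3 * C)) = l ^ 2 * edD1 S C l by
      simp only [envD1, edD1]; ring]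
    linear_combination (edD1 S C l) * hdl'
  have sD2 : d * envD2 (l ^ 2 * S) (-(l ^ 3 * C)) = edD2 S C l := by
    rw [show envD2 (l ^ 2 * S) (-(l ^ 3 * C)) = l ^ 2 * edD2 S C l by
      simp only [envD2, edD2]; ring]
    linear_combination (edD2 S C l) * hdl'
  have sG : d * (l ^ 2 * S + envG (l ^ 2 * S) (-(l ^ 3 * C))) = S + edG S C l := by
    rw [show envG (l ^ 2 * S) (-(l ^ 3 * C)) = l ^ 2 * edG S C l by
      simp only [envG, edG]; ring]
    linear_combination (S + edG S C l) * hdl'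
  have sQ : d ^ 2 * (21 / 10000 * (-(l ^ 3 * C)) ^ 2 + 54621 / 8187500 * (l ^ 2 * S) ^ 4) =
      edSq S C l := by
    rw [show 21 / 10000 * (-(l ^ 3 * C)) ^ 2 + 54621 / 8187500 * (l ^ 2 * S) ^ 4 =
      l ^ 4 * edSq S C l by simp only [edSq]; ring]
    linear_combination (edSq S C l) * (d * l ^ 2 + 1) * hdl'
  simp only [edV, edD1, edD2, edG, edSq] at sV sD1 sD2 sG sQ
  rw [sV] at eV
  rw [sD1] at eD1
  rw [sD2] at eD2
  rw [sG] at eG
  rw [sQ] at eQ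
  have e : ∀ j, tanEdge lam d (atom j) u = d * tanVert (atom j) fun i => lam * u i :=
    fun j => tanEdge_eq lam d _ u
  obtain ⟨a0, ha0⟩ : ∃ a0, a0 = √S := ⟨_, rfl⟩
  have ha00 : 0 ≤ a0 := ha0 ▸ Real.sqrt_nonneg _
  have ha2 : a0 ^ 2 = S := ha0 ▸ Real.sq_sqrt hS0
  have ha01 : a0 ≤ 1 := ha0 ▸ Real.sqrt_le_one.2 hS1
  have hCa : |C| ≤ a0 ^ 3 := by
    refine abs_le_of_sq_le_sq ?_ (pow_nonneg ha00 3)
    rw [← pow_mul, show 3 * 2 = 2 * 3 from rfl, pow_mul, ha2]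
    exact hCS
  have hC2 : |C| ≤ 1 := hCa.trans (pow_le_one₀ ha00 ha01)
  have hl2 : l ≤ 44722 / 100000 := by linarith
  have hl0' : 0 ≤ l := by linarith
  have hT := TT_pos a' b'
  have hle1 : tanVert (atom 1) (fun i => lam * u i) ≤ tanVert (atom 0) fun i => lam * u i := by
    rw [hv.h0, hv.h1]
    refine div_le_div_of_nonneg_right ?_ hT.le
    rw [tn0, tn1]
    linarith [amgm1 hv.hb hv.hba hv.ha]
  have hle2 : tanVert (atom 2) (fun i => lam * u i) ≤ tanVert (atom 0) fun i => lam * u i := by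
    rw [hv.h0, hv.h2]
    refine div_le_div_of_nonneg_right ?_ hT.le
    rw [tn0, tn2]
    linarith [amgm2 hv.hb hv.hba]
  have hA0 : tanEdge lam d (atom 0) u ≤ 2 := by
    rw [e]
    refine eG.trans ?_
    have hlC : l * C ≤ 44722 / 100000 :=
      (mul_le_mul_of_nonneg_left (le_of_abs_le hC2) hl0').trans (by linarith)
    have p2 : l ^ 2 * S ^ 2 ≤ (44722 / 100000) ^ 2 * 1 :=
      mul_le_mul (pow_le_pow_left₀ hl0' hl2 2) (pow_le_one₀ hS0 hS1) (sq_nonneg _) (by norm_num)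
    have p4 : l ^ 4 * S ^ 3 ≤ (44722 / 100000) ^ 4 * 1 :=
      mul_le_mul (pow_le_pow_left₀ hl0' hl2 4) (pow_le_one₀ hS0 hS1) (pow_nonneg hS0 3)
        (by norm_num)
    norm_num at p2 p4
    linarith
  refine ⟨fun j => ?_, fun m hm hm2 => ?_⟩
  · fin_cases j
    · exact hA0
    · exact le_trans (by rw [e, e]; exact mul_le_mul_of_nonneg_left hle1 hd.le) hA0
    · exact le_trans (by rw [e, e]; exact mul_le_mul_of_nonneg_left hle2 hd.le) hA0
  have hc := hcl a0 C m ha00 ha01 hCa (by rw [ha2]; exact hC1) hm hm2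
  rw [← hll] at hc
  simp only [closing, ha2, edV, edD1, edD2, edG, edSq] at hc
  simp only [e, Fin.sum_univ_three, coef, Matrix.cons_val_zero, Matrix.cons_val_one,
    Matrix.cons_val, ss_eq, ← hS]
  have t1 := mul_le_mul_of_nonneg_left eD1 (mul_nonneg (by norm_num : (0 : ℝ) ≤ 346) (h1 m hm hm2))
  have t2 := mul_le_mul_of_nonneg_left eD2 (mul_nonneg (by norm_num : (0 : ℝ) ≤ 84) (h2 m hm hm2))
  have t3 := mul_le_mul_of_nonneg_left eQ (by linarith : (0 : ℝ) ≤ 84 * (κ / 2))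
  have t4 := mul_le_mul_of_nonneg_left eG (mul_nonneg (by norm_num : (0 : ℝ) ≤ 91 / 100) hm)
  linarith

end Vale.Agent.P154.NegMid
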