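import Vale.Agent.P154.NegMid.Assembly
import Mathlib.Analysis.SpecialFunctions.ExpDeriv
import Mathlib.Analysis.Calculus.Deriv.MeanValue

/-!
P154: what the groups leave of the second order remainder is monotone, so the linear bounds by
the reference atom reduce it to one variable.
-/

namespace Vale.Agent.P154

open Finset

/-- The difference between the Padé main term and the second order remainder. -/
noncomputable def etaG (G : ℝ → ℝ) (d κ β a : ℝ) : ℝ :=
  κ / 2 * (a ^ 2 / (1 + β * a)) - (G (1 - a / d) - 1 + a)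

/-- The rest is monotone if `W` solves `W' = (1-θ) W / (1-θ t)` and `1 / W` is minus the derivative
of the generating function. -/
lemma etaG_monotoneOn {G W : ℝ → ℝ} {d θ B : ℝ} (h0 : 0 ≤ θ) (h1 : θ ≤ 1 / 2)
    (hB : θ * B ≤ 1) (hG : Continuous G) (hW0 : W 0 = 1) (hWp : ∀ t, 0 ≤ t → t < B → 0 < W t)
    (hW : ∀ t, 0 ≤ t → t < B → HasDerivAt W ((1 - θ) * W t / (1 - θ * t)) t)
    (hd : ∀ t, 0 < t → t < B → HasDerivAt (fun s => G (1 - s / d)) (-(1 / W t)) t) :
    MonotoneOn (etaG G d (1 - θ) ((1 - 2 * θ) / 3)) (Set.Icc 0 B) := by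
  set κ := 1 - θ with hκ
  set β := (1 - 2 * θ) / 3 with hβ
  have hκ0 : 0 ≤ κ := by rw [hκ]; linarith
  have hβ0 : 0 ≤ β := by rw [hβ]; linarith
  have hden : ∀ t : ℝ, 0 ≤ t → 0 < 1 + β * t := fun t ht => by linarith [mul_nonneg hβ0 ht]
  have hθt : ∀ t, 0 ≤ t → t < B → 0 < 1 - θ * t := fun t ht htB => by
    rcases h0.eq_or_lt with hz | hz
    · rw [← hz]; linarith
    · nlinarith
  -- the comparison `1 - f ≤ 1 / W`
  have key : ∀ t, 0 ≤ t → t < B →
      ((1 + β * t) ^ 2 - κ * (t + β * t ^ 2 / 2)) * W t / (1 + β * t) ^ 2 ≤ 1 := by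
    intro a ha haB
    set ψ := fun t : ℝ => ((1 + β * t) ^ 2 - κ * (t + β * t ^ 2 / 2)) * W t / (1 + β * t) ^ 2
      with hψ
    have hder : ∀ t, 0 ≤ t → t < B → HasDerivAt ψ
        (-(κ * W t * (1 + β * t) * (β * ((1 + θ) / 3)) * (t ^ 2 * (3 / 2 + β * t / 2)) /
          ((1 - θ * t) * ((1 + β * t) ^ 2) ^ 2))) t := by
      intro t ht htB
      have hq : HasDerivAt (fun s : ℝ => 1 + β * s) β t := by
        simpa using ((hasDerivAt_id t).const_mul β).const_add 1
      have hN : HasDerivAt (fun s : ℝ => (1 + β * s) ^ 2 - κ * (s + β * s ^ 2 / 2))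
          (2 * (1 + β * t) * β - κ * (1 + β * t)) t := by
        have := (hq.pow 2).sub (((hasDerivAt_id t).add
          ((((hasDerivAt_id t).pow 2).const_mul β).div_const 2)).const_mul κ)
        exact this.congr_deriv (by simp only [id]; norm_num1; ring)
      refine ((hN.mul (hW t ht htB)).div (hq.pow 2) (pow_ne_zero _ (hden t ht).ne')).congr_deriv ?_
      have := hden t ht
      have := hθt t ht htB
      simp only [Pi.pow_apply, Pi.mul_apply]
      generalize hq' : 1 - θ * t = qq at *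
      generalize W t = w
      have hqq : qq ≠ 0 := ne_of_gt ‹0 < qq›
      field_simp
      subst hq'
      rw [hκ, hβ]
      ring
    have hsub : ∀ {t : ℝ}, t ∈ interior (Set.Icc 0 a) → 0 ≤ t ∧ t < B := fun ht => by
      rw [interior_Icc] at ht; exact ⟨ht.1.le, ht.2.trans haB⟩
    have hm := antitoneOn_of_hasDerivWithinAt_nonpos (convex_Icc 0 a)
      (fun t ht => (hder t ht.1 (ht.2.trans_lt haB)).continuousAt.continuousWithinAt)
      (fun t ht => (hder t (hsub ht).1 (hsub ht).2).hasDerivWithinAt) fun t ht => by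
        obtain ⟨t0, t1⟩ := hsub ht
        rw [neg_nonpos]
        have := hθt t t0 t1
        have := hWp t t0 t1
        have := hden t t0
        have : 0 ≤ β * t := mul_nonneg hβ0 t0
        positivity
    have := hm (Set.left_mem_Icc.2 ha) (Set.right_mem_Icc.2 ha) ha
    simpa [hψ, hW0] using this
  refine monotoneOn_of_hasDerivWithinAt_nonneg (convex_Icc 0 B) ?_
    (f' := fun t => κ * (t + β * t ^ 2 / 2) / (1 + β * t) ^ 2 - 1 + 1 / W t) ?_ ?_
  · unfold etaG
    exact (continuousOn_const.mul (ContinuousOn.div (by fun_prop) (by fun_prop)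
      fun t ht => (hden t ht.1).ne')).sub (by fun_prop)
  · intro t ht
    rw [interior_Icc] at ht
    have hq : HasDerivAt (fun s : ℝ => 1 + β * s) β t := by
      simpa using ((hasDerivAt_id t).const_mul β).const_add 1
    have := ((((hasDerivAt_id t).pow 2).div hq (hden t ht.1.le).ne').const_mul (κ / 2)).sub
      (((hd t ht.1 ht.2).sub_const 1).add (hasDerivAt_id t))
    refine HasDerivAt.hasDerivWithinAt (HasDerivAt.congr_of_eventuallyEq (this.congr_deriv ?_) ?_)
    · simp only [id, Pi.pow_apply]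
      have := hden t ht.1.le
      field_simp
      ring
    · exact Filter.Eventually.of_forall fun s => by simp [etaG]
  · intro t ht
    rw [interior_Icc] at ht
    have h := key t ht.1.le ht.2
    have hw := hWp t ht.1.le ht.2
    have hD : 0 < (1 + β * t) ^ 2 := pow_pos (hden t ht.1.le) 2
    rw [mul_div_right_comm, ← le_div_iff₀ hw, sub_div, div_self hD.ne'] at h
    linarith

/-- Monotonicity for a Poisson number of children. -/
theorem etaG_monotoneOn_poisson {d : ℝ} (hd : 0 < d) (B : ℝ) :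
    MonotoneOn (etaG (genPoisson d) d 1 (1 / 3)) (Set.Icc 0 B) := by
  have e : (fun s => genPoisson d (1 - s / d)) = fun s => Real.exp (-s) := by
    funext s
    rw [genPoisson]
    congr 1
    field_simp
    ring
  have h := etaG_monotoneOn (G := genPoisson d) (W := Real.exp) (d := d) (θ := 0) (B := B) le_rfl
    (by norm_num) (by simp) (by unfold genPoisson; fun_prop) Real.exp_zero
    (fun t _ _ => Real.exp_pos t) (fun t _ _ => by simpa using Real.hasDerivAt_exp t)
    fun t _ _ => by
      rw [e]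
      simpa [Real.exp_neg] using (hasDerivAt_id t).neg.exp
  simpa using h

/-- Monotonicity for `d ≥ 2` children. -/
theorem etaG_monotoneOn_regular {d : ℕ} (hd : 2 ≤ d) :
    MonotoneOn (etaG (genRegular d) (d : ℝ) (1 - 1 / d) ((1 - 2 / d) / 3)) (Set.Icc 0 (d : ℝ)) := by
  have hd' : (2 : ℝ) ≤ d := by exact_mod_cast hd
  set θ := (1 : ℝ) / d with hθdef
  have hθd : θ * d = 1 := by rw [hθdef]; field_simp
  have hθ1 : θ ≤ 1 / 2 := by rw [hθdef]; gcongr
  have hpos : ∀ t, t < (d : ℝ) → 0 < 1 - θ * t := fun t ht => by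
    have := mul_lt_mul_of_pos_left ht (show 0 < θ by rw [hθdef]; positivity)
    linarith
  obtain ⟨m, rfl⟩ := Nat.exists_eq_add_of_le' hd
  have h := etaG_monotoneOn (G := genRegular (m + 2)) (W := fun t => ((1 - θ * t) ^ (m + 1))⁻¹)
    (d := ((m + 2 : ℕ) : ℝ)) (θ := θ) (B := ((m + 2 : ℕ) : ℝ)) (by rw [hθdef]; positivity) hθ1
    hθd.le (by unfold genRegular; fun_prop) (by simp)
    (fun t _ ht => inv_pos.2 (pow_pos (hpos t ht) _))
    (fun t _ ht => by
      have hp := hpos t ht
      have := ((((hasDerivAt_id t).const_mul θ).const_sub 1).pow (m + 1)).inv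
        (pow_ne_zero (m + 1) hp.ne')
      refine this.congr_deriv ?_
      simp only [Pi.pow_apply, Nat.add_sub_cancel, id]
      rw [pow_succ (1 - θ * t) m]
      push_cast at hθd ⊢
      field_simp
      linear_combination hθd)
    fun t _ ht => by
      have := (((hasDerivAt_id t).const_mul θ).const_sub 1).pow (m + 2)
      refine (this.congr_of_eventuallyEq ?_).congr_deriv ?_
      · exact Filter.Eventually.of_forall fun s => by
          simp only [genRegular, hθdef, Pi.pow_apply, id]; ring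
      · simp only [one_div, inv_inv, id, show m + 2 - 1 = m + 1 from rfl]
        linear_combination (-(1 - θ * t) ^ (m + 1)) * hθd
  have e : (2 : ℝ) / ((m + 2 : ℕ) : ℝ) = 2 * θ := by rw [hθdef]; ring
  rw [e]
  exact h

/-- The reduction to one variable. -/
theorem remCertG_of_monotone {q N K : ℕ} {G : ℝ → ℝ} {d κ β B : ℝ} {D : GroupData q N K}
    (hmono : MonotoneOn (etaG G d κ β) (Set.Icc 0 B))
    (hc : ∀ j, D.c j = ∑ g, (D.b g j - if D.n g = j then D.b0 g else 0))
    (hlo : ∀ j, 0 ≤ D.lo j) (hhi : ∀ j, 0 ≤ D.hi j) (hB : ∀ j, D.hi j * D.A ≤ B)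
    (hone : ∀ m, 0 ≤ m → m ≤ D.A → 0 ≤ ∑ j, (-(D.c j)) *
      etaG G d κ β (if 0 ≤ -(D.c j) then D.lo j * m else D.hi j * m)) :
    RemCertG G d κ β D := by
  intro a haA ha hr
  have hm := hone _ (ha D.j0).1 haA
  have hle : ∑ j, (-(D.c j)) *
      etaG G d κ β (if 0 ≤ -(D.c j) then D.lo j * a D.j0 else D.hi j * a D.j0) ≤
        ∑ j, (-(D.c j)) * etaG G d κ β (a j) := by
    refine sum_le_sum fun j _ => ?_
    have hhB : D.hi j * a D.j0 ≤ B := (mul_le_mul_of_nonneg_left haA (hhi j)).trans (hB j)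
    have haj : a j ∈ Set.Icc 0 B := ⟨(ha j).1, (hr j).2.trans hhB⟩
    split_ifs with h
    · exact mul_le_mul_of_nonneg_left (hmono ⟨mul_nonneg (hlo j) (ha D.j0).1,
        ((hr j).1.trans (hr j).2).trans hhB⟩ haj (hr j).1) h
    · exact mul_le_mul_of_nonpos_left (hmono haj ⟨mul_nonneg (hhi j) (ha D.j0).1, hhB⟩ (hr j).2)
        (le_of_not_ge h)
  have hmain : D.main κ β a = ∑ j, (-(D.c j)) * (κ / 2 * (a j ^ 2 / (1 + β * a j))) := by
    simp only [hc, GroupData.main, neg_mul, sum_mul, sub_mul, ite_mul, zero_mul, sum_sub_distrib]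
    rw [sum_neg_distrib, sum_sub_distrib, sum_comm (f := fun j g => D.b g j * _),
      sum_comm (f := fun j g => if D.n g = j then _ else _)]
    simp only [sum_ite_eq, mem_univ, if_true, mul_sub, mul_sum, mul_left_comm (κ / 2)]
    ring
  have hsplit : ∑ j, (-(D.c j)) * (G (1 - a j / d) - 1 + a j) =
      ∑ j, (-(D.c j)) * (κ / 2 * (a j ^ 2 / (1 + β * a j))) -
        ∑ j, (-(D.c j)) * etaG G d κ β (a j) := by
    rw [← sum_sub_distrib]
    exact sum_congr rfl fun j _ => by rw [etaG]; ring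
  rw [hmain, hsplit]
  linarith

end Vale.Agent.P154
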